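import Vale.Agent.P099.H184.PT.Tri

set_option linter.all false

open MeasureTheory Set Filter Topology

namespace Vale.Agent.P099T

open Vale.Agent.P099

/-- a big triangle -/
theorem base_trg {Q : Set ℂ} (hQ : Bornology.IsBounded Q) : ∃ F : Set (Finset ℂ), Trg Q F := by
  obtain ⟨R, hR0, hR⟩ := hQ.subset_ball_lt 0 0
  set a : ℂ := ⟨-(3 * R), -R⟩ with ha
  set b : ℂ := ⟨3 * R, -R⟩ with hb
  set c : ℂ := ⟨0, 3 * R⟩ with hc
  have hne : cr (b - a) (c - a) ≠ 0 := by
    have : cr (b - a) (c - a) = 24 * (R * R) := by
      unfold cr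
      simp only [ha, hb, hc, Complex.sub_re, Complex.sub_im]
      ring
    rw [this]
    have := mul_pos hR0 hR0
    linarith
  have hsub : Q ⊆ interior (convexHull ℝ (({a, b, c} : Finset ℂ) : Set ℂ)) := by
    intro p hp
    have h1 := hR hp
    rw [mem_ball_zero_iff] at h1
    have hre : |p.re| < R := (Complex.abs_re_le_norm p).trans_lt h1
    have him : |p.im| < R := (Complex.abs_im_le_norm p).trans_lt h1
    rw [abs_lt] at hre him
    rw [← mk3_table hne, Triangle.mem_table_iff]
    have hD : 0 < cr (b - a) (c - a) := by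
      have : cr (b - a) (c - a) = 24 * (R * R) := by
        unfold cr
        simp only [ha, hb, hc, Complex.sub_re, Complex.sub_im]
        ring
      rw [this]
      have := mul_pos hR0 hR0
      linarith
    intro i
    fin_cases i
    · change 0 < (mk3 a b c hne).lam 0 p
      rw [mk3_lam0]
      refine div_pos ?_ hD
      have : cr (c - b) (p - b) = R * (9 * R - 4 * p.re - 3 * p.im) := by
        unfold cr
        simp only [hb, hc, Complex.sub_re, Complex.sub_im]
        ring
      rw [this]
      exact mul_pos hR0 (by linarith [hre.1, hre.2, him.1, him.2])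
    · change 0 < (mk3 a b c hne).lam 1 p
      rw [mk3_lam1]
      refine div_pos ?_ hD
      have : cr (a - c) (p - c) = R * (9 * R + 4 * p.re - 3 * p.im) := by
        unfold cr
        simp only [ha, hc, Complex.sub_re, Complex.sub_im]
        ring
      rw [this]
      exact mul_pos hR0 (by linarith [hre.1, hre.2, him.1, him.2])
    · change 0 < (mk3 a b c hne).lam 2 p
      rw [mk3_lam2]
      refine div_pos ?_ hD
      have : cr (b - a) (p - a) = 6 * R * (p.im + R) := by
        unfold cr
        simp only [ha, hb, Complex.sub_re, Complex.sub_im]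
        ring
      rw [this]
      exact mul_pos (by linarith) (by linarith [him.1])
  refine ⟨{({a, b, c} : Finset ℂ)}, ?_, ?_, ?_, ?_, ?_⟩
  · exact finite_singleton _
  · intro τ hτ
    rw [mem_singleton_iff] at hτ
    exact ⟨a, b, c, hτ, hne⟩
  · intro τ hτ τ' hτ' _
    rw [mem_singleton_iff] at hτ hτ'
    rw [hτ, hτ']
  · intro p hp
    refine mem_iUnion₂.2 ⟨({a, b, c} : Finset ℂ), mem_singleton _, ?_⟩
    exact interior_subset (hsub hp)
  · intro x y v hxyv hcr
    left
    rw [mem_singleton_iff] at hxyv
    rw [Set.disjoint_left]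
    rintro q ⟨s, t, hs, ht, hst, rfl⟩ hqQ
    have h1 := hsub hqQ
    rw [← hxyv, ← mk3_table hcr, Triangle.mem_table_iff] at h1
    have h2 := h1 2
    rw [(mk3 x y v hcr).lam_comb 2 hst] at h2
    have e0 : (mk3 x y v hcr).lam 2 x = 0 := by
      have := (mk3 x y v hcr).lam_P 2 0
      rwa [mk3_P0, if_neg (by decide)] at this
    have e1 : (mk3 x y v hcr).lam 2 y = 0 := by
      have := (mk3 x y v hcr).lam_P 2 1
      rwa [mk3_P1, if_neg (by decide)] at this
    rw [e0, e1] at h2
    simp at h2

end Vale.Agent.P099T
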