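import Vale.Agent.P099.H184.PT.Flag

set_option linter.all false

open MeasureTheory Set Filter Topology

namespace Vale.Agent.P099T

open Vale.Agent.P099

/-- flags of the triangles inside `Q` -/
structure Flag (Q : Set ℂ) (F : Set (Finset ℂ)) : Type where
  x : ℂ
  y : ℂ
  z : ℂ
  mem : ({x, y, z} : Finset ℂ) ∈ Inn Q F
  ne : cr (y - x) (z - x) ≠ 0

lemma Flag.eq {Q : Set ℂ} {F : Set (Finset ℂ)} {s s' : Flag Q F} (hx : s.x = s'.x)
    (hy : s.y = s'.y) (hz : s.z = s'.z) : s = s' := by
  cases s
  cases s'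
  simp only at hx hy hz
  subst hx hy hz
  rfl

lemma fin_swap0 (x y z : ℂ) : ({y, x, z} : Finset ℂ) = {x, y, z} := Finset.insert_comm _ _ _

lemma fin_swap1 (x y z : ℂ) : ({x, z, y} : Finset ℂ) = {x, y, z} := by
  rw [Finset.pair_comm]

variable {N : ℕ} {T : PolygonalTable N} {F : Set (Finset ℂ)}

lemma Adapted.exists_nb (h : Adapted T F) {x y z : ℂ} (hs : ({x, y, z} : Finset ℂ) ∈ Inn T.Q F)
    (hc : cr (y - x) (z - x) ≠ 0) (ho : openSegment ℝ x y ⊆ T.Q) :
    ∃ w, ({x, y, w} : Finset ℂ) ∈ Inn T.Q F ∧ cr (y - x) (z - x) * cr (y - x) (w - x) < 0 := by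
  have hm : mid x y ∈ T.Q := ho (mid_mem_openSegment x y)
  rcases h.trg.face x y z hs.1 hc with h1 | ⟨w, hw, hw'⟩
  · exact absurd hm (Set.disjoint_left.1 h1
      (openSegment_subset_segment ℝ _ _ (mid_mem_openSegment x y)))
  · refine ⟨w, h.inn hw ?_, hw'⟩
    have hc' : cr (y - x) (w - x) ≠ 0 := by
      intro h0; rw [h0, mul_zero] at hw'; exact lt_irrefl _ hw'
    have h2 := (tendsto_side x y w).eventually (T.isOpen.mem_nhds hm)
    obtain ⟨t, h3, h4⟩ := ((near_side hc').and h2).exists
    rw [mk3_table] at h3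
    exact ⟨_, h3, h4⟩

namespace Flag

variable {Q : Set ℂ}

/-- the other vertex of the side -/
def swap0 (s : Flag Q F) : Flag Q F where
  x := s.y
  y := s.x
  z := s.z
  mem := by
    rw [fin_swap0]
    exact s.mem
  ne := by
    rw [cr_swap0]
    exact neg_ne_zero.2 s.ne

/-- the other side at the vertex -/
def swap1 (s : Flag Q F) : Flag Q F where
  x := s.x
  y := s.z
  z := s.y
  mem := by
    rw [fin_swap1]
    exact s.mem
  ne := by
    rw [cr_swap1]
    exact neg_ne_zero.2 s.ne

/-- the tile of a flag -/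
noncomputable def tile (s : Flag Q F) : Triangle := fl s.x s.y s.z s.ne

end Flag

/-- the third vertex of the neighbour across the side -/
noncomputable def Adapted.third (h : Adapted T F) (s : Flag T.Q F)
    (ho : openSegment ℝ s.x s.y ⊆ T.Q) : ℂ := (h.exists_nb s.mem s.ne ho).choose

lemma Adapted.third_mem (h : Adapted T F) (s : Flag T.Q F)
    (ho : openSegment ℝ s.x s.y ⊆ T.Q) :
    ({s.x, s.y, h.third s ho} : Finset ℂ) ∈ Inn T.Q F :=
  (h.exists_nb s.mem s.ne ho).choose_spec.1

lemma Adapted.third_neg (h : Adapted T F) (s : Flag T.Q F)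
    (ho : openSegment ℝ s.x s.y ⊆ T.Q) :
    cr (s.y - s.x) (s.z - s.x) * cr (s.y - s.x) (h.third s ho - s.x) < 0 :=
  (h.exists_nb s.mem s.ne ho).choose_spec.2

/-- the neighbour across an open side inside the table -/
noncomputable def Adapted.across (h : Adapted T F) (s : Flag T.Q F)
    (ho : openSegment ℝ s.x s.y ⊆ T.Q) : Flag T.Q F where
  x := s.x
  y := s.y
  z := h.third s ho
  mem := h.third_mem s ho
  ne := by
    intro h0
    have h1 := h.third_neg s ho
    rw [h0, mul_zero] at h1
    exact lt_irrefl _ h1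

open Classical in
/-- the neighbour across the side of the big triangle -/
noncomputable def Adapted.swap2 (h : Adapted T F) (s : Flag T.Q F) : Flag T.Q F :=
  if ho : openSegment ℝ s.x s.y ⊆ T.Q then h.across s ho else s

lemma Adapted.swap2_pos (h : Adapted T F) {s : Flag T.Q F}
    (ho : openSegment ℝ s.x s.y ⊆ T.Q) : h.swap2 s = h.across s ho := by
  rw [Adapted.swap2, dif_pos ho]

lemma Adapted.swap2_neg (h : Adapted T F) {s : Flag T.Q F}
    (ho : ¬ openSegment ℝ s.x s.y ⊆ T.Q) : h.swap2 s = s := by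
  rw [Adapted.swap2, dif_neg ho]

lemma Adapted.across_ne (h : Adapted T F) {s : Flag T.Q F}
    (ho : openSegment ℝ s.x s.y ⊆ T.Q) : h.across s ho ≠ s := by
  intro h1
  have h2 := h.third_neg s ho
  have h3 : h.third s ho = s.z := congrArg Flag.z h1
  rw [h3] at h2
  nlinarith [sq_nonneg (cr (s.y - s.x) (s.z - s.x))]

lemma Adapted.swap2_ne (h : Adapted T F) {s : Flag T.Q F}
    (ho : openSegment ℝ s.x s.y ⊆ T.Q) : h.swap2 s ≠ s := by
  rw [h.swap2_pos ho]
  exact h.across_ne ho

lemma Adapted.swap2_swap2 (h : Adapted T F) (s : Flag T.Q F) : h.swap2 (h.swap2 s) = s := by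
  by_cases ho : openSegment ℝ s.x s.y ⊆ T.Q
  · rw [h.swap2_pos ho]
    have ho' : openSegment ℝ (h.across s ho).x (h.across s ho).y ⊆ T.Q := ho
    rw [h.swap2_pos ho']
    refine Flag.eq rfl rfl ?_
    change h.third (h.across s ho) ho' = s.z
    have h4 := h.third_mem (h.across s ho) ho'
    have h5 := h.third_neg (h.across s ho) ho'
    have h6 := h.third_neg s ho
    refine third_unique h.trg h4.1 s.mem.1 ?_
    change cr (s.y - s.x) (h.third s ho - s.x) *
      cr (s.y - s.x) (h.third (h.across s ho) ho' - s.x) < 0 at h5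
    set A := cr (s.y - s.x) (s.z - s.x)
    set B := cr (s.y - s.x) (h.third s ho - s.x)
    set C := cr (s.y - s.x) (h.third (h.across s ho) ho' - s.x)
    have h8 : 0 < (A * B) * (B * C) := mul_pos_of_neg_of_neg h6 h5
    have h9 : (A * B) * (B * C) = (C * A) * B ^ 2 := by ring
    rw [h9] at h8
    change 0 < C * A
    by_contra h10
    have h11 : (C * A) * B ^ 2 ≤ 0 := mul_nonpos_of_nonpos_of_nonneg (not_lt.1 h10) (sq_nonneg B)
    linarith
  · rw [h.swap2_neg ho, h.swap2_neg ho]

/-- the complex of the flags -/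
noncomputable def Adapted.cx (h : Adapted T F) : Cx (Flag T.Q F) where
  T := Flag.tile
  σ := fun s i => match i with
    | 0 => s.swap0
    | 1 => s.swap1
    | 2 => h.swap2 s
  invol := by
    intro s i
    fin_cases i
    · rfl
    · rfl
    · exact h.swap2_swap2 s
  glue := by
    intro s i j hj
    fin_cases i
    · fin_cases j
      · exact absurd rfl hj
      · exact mid_comm _ _
      · exact (cen_swap0 _ _ _).symm
    · fin_cases j
      · rfl
      · exact absurd rfl hj
      · exact (cen_swap1 _ _ _).symm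
    · change (h.swap2 s).tile.P j = s.tile.P j
      by_cases ho : openSegment ℝ s.x s.y ⊆ T.Q
      · rw [h.swap2_pos ho]
        fin_cases j
        · rfl
        · rfl
        · exact absurd rfl hj
      · rw [h.swap2_neg ho]
  opp := by
    intro s i hi
    fin_cases i
    · change s.swap0.tile.lam 0 (s.tile.P 0) < 0
      have h1 : s.swap0.tile.lam 0 (s.tile.P 0) = -1 := by
        unfold Flag.tile
        rw [fl_lam0, fl_P0]
        have e0 := (mk3 _ _ _ s.swap0.ne).lam_P 0 1
        have e1 := (mk3 _ _ _ s.swap0.ne).lam_P 1 1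
        rw [mk3_P1] at e0 e1
        change (mk3 _ _ _ s.swap0.ne).lam 0 s.swap0.y - (mk3 _ _ _ s.swap0.ne).lam 1 s.swap0.y = -1
        rw [e0, e1]
        norm_num
      rw [h1]
      norm_num
    · change s.swap1.tile.lam 1 (s.tile.P 1) < 0
      have h1 : s.swap1.tile.lam 1 (s.tile.P 1) = -1 := by
        unfold Flag.tile
        rw [fl_lam1, fl_P1]
        have e0 := (mk3 _ _ _ s.swap1.ne).lam_P 1 0
        have e1 := (mk3 _ _ _ s.swap1.ne).lam_P 1 2
        have e2 := (mk3 _ _ _ s.swap1.ne).lam_P 2 0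
        have e3 := (mk3 _ _ _ s.swap1.ne).lam_P 2 2
        rw [mk3_P0] at e0 e2
        rw [mk3_P2] at e1 e3
        change 2 * ((mk3 _ _ _ s.swap1.ne).lam 1 (mid s.swap1.x s.swap1.z) -
          (mk3 _ _ _ s.swap1.ne).lam 2 (mid s.swap1.x s.swap1.z)) = -1
        unfold mid
        rw [(mk3 _ _ _ s.swap1.ne).lam_comb _ (by norm_num),
          (mk3 _ _ _ s.swap1.ne).lam_comb _ (by norm_num), e0, e1, e2, e3,
          if_neg (by decide), if_neg (by decide), if_neg (by decide), if_pos rfl]
        norm_num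
      rw [h1]
      norm_num
    · change (h.swap2 s).tile.lam 2 (s.tile.P 2) < 0
      have ho : openSegment ℝ s.x s.y ⊆ T.Q := by
        by_contra ho
        exact hi (h.swap2_neg ho)
      rw [h.swap2_pos ho]
      unfold Flag.tile
      rw [fl_lam2, fl_P2, mk3_lam2]
      change 3 * (cr (s.y - s.x) (cen s.x s.y s.z - s.x) /
        cr (s.y - s.x) (h.third s ho - s.x)) < 0
      have h2 : cr (s.y - s.x) (cen s.x s.y s.z - s.x) =
          (1 / 3) * cr (s.y - s.x) (s.z - s.x) := by
        unfold cr cen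
        simp only [Complex.sub_re, Complex.add_re, Complex.real_smul, Complex.re_ofReal_mul,
          Complex.sub_im, Complex.add_im, Complex.im_ofReal_mul]
        ring
      rw [h2]
      have h3 := h.third_neg s ho
      set A := cr (s.y - s.x) (s.z - s.x)
      set B := cr (s.y - s.x) (h.third s ho - s.x)
      have h4 : 3 * (1 / 3 * A / B) = A / B := by ring
      rw [h4, div_neg_iff]
      rcases lt_trichotomy A 0 with h5 | h5 | h5
      · right
        refine ⟨h5, ?_⟩
        by_contra h6
        nlinarith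
      · rw [h5, zero_mul] at h3
        exact absurd h3 (lt_irrefl _)
      · left
        refine ⟨h5, ?_⟩
        by_contra h6
        nlinarith

end Vale.Agent.P099T
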