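import Vale.Agent.P099.Defs

open MeasureTheory Set Filter Topology

namespace Vale.Agent.P099T

/-- A polygonal billiard table: a bounded domain (open, connected, nonempty) `Q` of the plane,
identified with the complex plane, whose boundary is a finite union of segments `[a i, b i]`.
So `Q` is the inside of any simple polygon, convex or not, or such a polygon with polygonal holes,
with slits, and so on. -/
structure PolygonalTable (N : ℕ) where
  Q : Set ℂ
  isOpen : IsOpen Q
  isConnected : IsConnected Q
  isBounded : Bornology.IsBounded Q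
  a : Fin N → ℂ
  b : Fin N → ℂ
  ne : ∀ i, a i ≠ b i
  frontier_eq : frontier Q = ⋃ i, segment ℝ (a i) (b i)

namespace PolygonalTable

variable {N : ℕ} (T : PolygonalTable N)

/-- The `i`-th wall, without its endpoints. -/
def side (i : Fin N) : Set ℂ := openSegment ℝ (T.a i) (T.b i)

/-- Specular reflection of velocities at the wall `i`. -/
noncomputable def refl (i : Fin N) (u : ℂ) : ℂ :=
  (Submodule.span ℝ {T.b i - T.a i}).reflection u

/-- The table is irrational: two walls make an angle which is an irrational multiple of `π`
(for a simple polygon: some interior angle is an irrational multiple of `π`). -/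
def IsIrrational : Prop :=
  ∃ i j, Irrational (InnerProductGeometry.angle (T.b i - T.a i) (T.b j - T.a j) / Real.pi)

/-- Uniform position in the table, uniform direction. -/
noncomputable def mu : Measure (ℂ × ℂ) :=
  (ProbabilityTheory.cond volume T.Q).prod Vale.Agent.P099.nu

/-- `γ t = (position, direction)`: straight motion at unit speed in the table, specular
reflection at the walls, for all times. -/
def IsTrajectory (γ : ℝ → ℂ × ℂ) : Prop :=
  ∀ t, ((γ t).1 ∈ T.Q ∧ ∀ᶠ s in 𝓝 t, γ s = ((γ t).1 + (s - t) • (γ t).2, (γ t).2)) ∨
    ∃ i u, (γ t).1 ∈ T.side i ∧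
      (∀ᶠ s in 𝓝[<] t, γ s = ((γ t).1 + (s - t) • u, u)) ∧
      (∀ᶠ s in 𝓝[>] t, γ s = ((γ t).1 + (s - t) • T.refl i u, T.refl i u))

/-- `Φ` is the billiard flow: almost every phase point moves along a billiard trajectory. -/
def IsBilliardFlow (Φ : ℝ → ℂ × ℂ → ℂ × ℂ) : Prop :=
  ∀ᵐ p ∂T.mu, Φ 0 p = p ∧ T.IsTrajectory (fun t => Φ t p)

end PolygonalTable

end Vale.Agent.P099T
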