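import Vale.Agent.P099.H184.Cx.Traj
import Vale.Agent.P099.H184.PT.Defs

set_option linter.all false

open MeasureTheory Set Filter Topology

namespace Vale.Agent.P099T

open Vale.Agent.P099

/-- the complex `X` is obtained by cutting the table `T` into triangles -/
structure Cut {N : ℕ} (T : PolygonalTable N) {S : Type} (X : Cx S) : Prop where
  sub : ∀ s, (X.T s).table ⊆ T.Q
  disj : ∀ s s', s ≠ s' → Disjoint (X.T s).table (X.T s').table
  cover : ∀ᵐ x ∂(volume : Measure ℂ), x ∈ T.Q → ∃ s, x ∈ (X.T s).table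
  glued : ∀ s i, X.σ s i ≠ s → (X.T s).side i ⊆ T.Q
  wall : ∀ s i, X.σ s i = s → ∃ j, (X.T s).side i ⊆ T.side j
  refl_eq : ∀ s i, X.σ s i = s → ∀ x ∈ (X.T s).side i, ∀ j, x ∈ T.side j →
    ∀ u, T.refl j u = (X.T s).refl i u
  all : ∀ j, ∃ s i, X.σ s i = s ∧ (X.T s).side i ⊆ T.side j
  conn : ∀ s s', Relation.ReflTransGen (fun a b => ∃ i, b = X.σ a i) s s'

/-- A triangulation of a neighbourhood of the set `Q`; the triangles are given by the sets of their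
vertices -/
structure Trg (Q : Set ℂ) (F : Set (Finset ℂ)) : Prop where
  finite : F.Finite
  nondeg : ∀ τ ∈ F, ∃ x y z, τ = {x, y, z} ∧ cr (y - x) (z - x) ≠ 0
  disj : ∀ τ ∈ F, ∀ τ' ∈ F,
    (interior (convexHull ℝ (τ : Set ℂ)) ∩ interior (convexHull ℝ (τ' : Set ℂ))).Nonempty → τ = τ'
  cover : Q ⊆ ⋃ τ ∈ F, convexHull ℝ (τ : Set ℂ)
  face : ∀ x y v, ({x, y, v} : Finset ℂ) ∈ F → cr (y - x) (v - x) ≠ 0 →
    Disjoint (segment ℝ x y) Q ∨
      ∃ w, ({x, y, w} : Finset ℂ) ∈ F ∧ cr (y - x) (v - x) * cr (y - x) (w - x) < 0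

/-- the line through `c` with direction `d` does not cross the triangles -/
def NoCross (F : Set (Finset ℂ)) (c d : ℂ) : Prop :=
  ∀ τ ∈ F, (∀ v ∈ τ, 0 ≤ cr d (v - c)) ∨ (∀ v ∈ τ, cr d (v - c) ≤ 0)

/-- the triangles inside `Q` -/
def Inn (Q : Set ℂ) (F : Set (Finset ℂ)) : Set (Finset ℂ) :=
  {τ | τ ∈ F ∧ interior (convexHull ℝ (τ : Set ℂ)) ⊆ Q}

/-- two triangles have a common side, they lie on different sides of it, and the open side is
inside `Q` -/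
def Adj (Q : Set ℂ) (τ τ' : Finset ℂ) : Prop :=
  ∃ x y v w : ℂ, τ = {x, y, v} ∧ τ' = {x, y, w} ∧ cr (y - x) (v - x) * cr (y - x) (w - x) < 0 ∧
    openSegment ℝ x y ⊆ Q

end Vale.Agent.P099T
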