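import Vale.Agent.P099.H184.PT.Cplx
import Vale.Agent.P099.H172.PTConn

set_option linter.all false

open MeasureTheory Set Filter Topology

namespace Vale.Agent.P099T

open Vale.Agent.P099

/-! ### permutations of the vertices -/

section perm

variable {x y z : ℂ} (h : cr (y - x) (z - x) ≠ 0) (p : ℂ)

lemma lam_swap0 (h' : cr (x - y) (z - y) ≠ 0) :
    (mk3 y x z h').lam 0 p = (mk3 x y z h).lam 1 p ∧
    (mk3 y x z h').lam 1 p = (mk3 x y z h).lam 0 p ∧
    (mk3 y x z h').lam 2 p = (mk3 x y z h).lam 2 p := by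
  refine ⟨?_, ?_, ?_⟩
  · rw [mk3_lam0, mk3_lam1, cr_swap0 x y z, div_eq_div_iff (neg_ne_zero.2 h) h]
    unfold cr
    simp only [Complex.sub_re, Complex.sub_im]
    ring
  · rw [mk3_lam0, mk3_lam1, cr_swap0 x y z, div_eq_div_iff (neg_ne_zero.2 h) h]
    unfold cr
    simp only [Complex.sub_re, Complex.sub_im]
    ring
  · rw [mk3_lam2, mk3_lam2, cr_swap0 x y z, div_eq_div_iff (neg_ne_zero.2 h) h]
    unfold cr
    simp only [Complex.sub_re, Complex.sub_im]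
    ring

lemma lam_swap1 (h' : cr (z - x) (y - x) ≠ 0) :
    (mk3 x z y h').lam 0 p = (mk3 x y z h).lam 0 p ∧
    (mk3 x z y h').lam 1 p = (mk3 x y z h).lam 2 p ∧
    (mk3 x z y h').lam 2 p = (mk3 x y z h).lam 1 p := by
  refine ⟨?_, ?_, ?_⟩
  · rw [mk3_lam0, mk3_lam0, cr_swap1 x y z, div_eq_div_iff (neg_ne_zero.2 h) h]
    unfold cr
    simp only [Complex.sub_re, Complex.sub_im]
    ring
  · rw [mk3_lam1, mk3_lam2, cr_swap1 x y z, div_eq_div_iff (neg_ne_zero.2 h) h]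
    unfold cr
    simp only [Complex.sub_re, Complex.sub_im]
    ring
  · rw [mk3_lam2, mk3_lam1, cr_swap1 x y z, div_eq_div_iff (neg_ne_zero.2 h) h]
    unfold cr
    simp only [Complex.sub_re, Complex.sub_im]
    ring

end perm

variable {Q : Set ℂ} {F : Set (Finset ℂ)}

/-- the six flags of a triangle -/
lemma Flag.six {s t : Flag Q F} (h : ({t.x, t.y, t.z} : Finset ℂ) = {s.x, s.y, s.z}) :
    t = s ∨ t = s.swap0 ∨ t = s.swap0.swap1 ∨ t = s.swap0.swap1.swap0 ∨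
      t = s.swap0.swap1.swap0.swap1 ∨ t = s.swap0.swap1.swap0.swap1.swap0 := by
  have hx : t.x ∈ ({s.x, s.y, s.z} : Finset ℂ) := by rw [← h]; simp
  have hy : t.y ∈ ({s.x, s.y, s.z} : Finset ℂ) := by rw [← h]; simp
  have hz : t.z ∈ ({s.x, s.y, s.z} : Finset ℂ) := by rw [← h]; simp
  simp only [Finset.mem_insert, Finset.mem_singleton] at hx hy hz
  have hxy : t.x ≠ t.y := by
    intro h0; apply t.ne; rw [h0]; unfold cr; simp
  have hxz : t.x ≠ t.z := by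
    intro h0; apply t.ne; rw [h0]; unfold cr; simp
  have hyz : t.y ≠ t.z := by
    intro h0; apply t.ne; rw [h0]; unfold cr; ring
  rcases hx with hx | hx | hx <;> rcases hy with hy | hy | hy <;> rcases hz with hz | hz | hz
  all_goals
    first
      | exact absurd (hx.trans hy.symm) hxy
      | exact absurd (hx.trans hz.symm) hxz
      | exact absurd (hy.trans hz.symm) hyz
      | exact Or.inl (Flag.eq hx hy hz)
      | exact Or.inr (Or.inl (Flag.eq hx hy hz))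
      | exact Or.inr (Or.inr (Or.inl (Flag.eq hx hy hz)))
      | exact Or.inr (Or.inr (Or.inr (Or.inl (Flag.eq hx hy hz))))
      | exact Or.inr (Or.inr (Or.inr (Or.inr (Or.inl (Flag.eq hx hy hz)))))
      | exact Or.inr (Or.inr (Or.inr (Or.inr (Or.inr (Flag.eq hx hy hz)))))

/-- coordinates of the big triangle -/
noncomputable def Flag.L (s : Flag Q F) (i : Fin 3) (p : ℂ) : ℝ := (mk3 s.x s.y s.z s.ne).lam i p

lemma Flag.L_swap0 (s : Flag Q F) (p : ℂ) : s.swap0.L 0 p = s.L 1 p ∧ s.swap0.L 1 p = s.L 0 p ∧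
    s.swap0.L 2 p = s.L 2 p := lam_swap0 s.ne p s.swap0.ne

lemma Flag.L_swap1 (s : Flag Q F) (p : ℂ) : s.swap1.L 0 p = s.L 0 p ∧ s.swap1.L 1 p = s.L 2 p ∧
    s.swap1.L 2 p = s.L 1 p := lam_swap1 s.ne p s.swap1.ne

lemma Flag.mem_tile (s : Flag Q F) (p : ℂ) : p ∈ s.tile.table ↔
    0 < s.L 2 p ∧ s.L 2 p < s.L 1 p ∧ s.L 1 p < s.L 0 p := mem_fl_iff s.ne p

lemma Flag.tile_sub (s : Flag Q F) :
    s.tile.table ⊆ interior (convexHull ℝ (({s.x, s.y, s.z} : Finset ℂ) : Set ℂ)) := by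
  rw [← mk3_table s.ne]
  exact fl_sub s.ne

lemma Flag.disj (hF : Trg Q F) {s t : Flag Q F} (hst : s ≠ t) :
    Disjoint s.tile.table t.tile.table := by
  rw [Set.disjoint_left]
  intro p hs ht
  have h1 := hF.disj _ s.mem.1 _ t.mem.1 ⟨p, s.tile_sub hs, t.tile_sub ht⟩
  rw [Flag.mem_tile] at hs ht
  obtain ⟨a1, a2, a3⟩ := hs
  obtain ⟨b1, b2, b3⟩ := ht
  rcases Flag.six h1.symm with h2 | h2 | h2 | h2 | h2 | h2
  · exact hst h2.symm
  all_goals
    rw [h2] at b1 b2 b3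
    simp only [(Flag.L_swap0 _ _).1, (Flag.L_swap0 _ _).2.1, (Flag.L_swap0 _ _).2.2,
      (Flag.L_swap1 _ _).1, (Flag.L_swap1 _ _).2.1, (Flag.L_swap1 _ _).2.2] at b1 b2 b3
    linarith

lemma Flag.finite (hF : Trg Q F) : Finite (Flag Q F) := by
  set V : Set ℂ := ⋃ τ ∈ F, (τ : Set ℂ) with hV
  have hVf : V.Finite := hF.finite.biUnion fun τ _ => τ.finite_toSet
  have h1 : ∀ s : Flag Q F, s.x ∈ V ∧ s.y ∈ V ∧ s.z ∈ V := by
    intro s
    refine ⟨mem_biUnion s.mem.1 ?_, mem_biUnion s.mem.1 ?_, mem_biUnion s.mem.1 ?_⟩ <;> simp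
  have : Finite V := hVf
  refine Finite.of_injective (fun s : Flag Q F =>
    ((⟨s.x, (h1 s).1⟩, ⟨s.y, (h1 s).2.1⟩, ⟨s.z, (h1 s).2.2⟩) : V × V × V)) ?_
  intro s t hst
  simp only [Prod.mk.injEq, Subtype.mk.injEq] at hst
  exact Flag.eq hst.1 hst.2.1 hst.2.2

end Vale.Agent.P099T
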