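import Vale.Agent.P099.H184.PT.CutEx
import Mathlib.Analysis.Convex.Measure

set_option linter.all false

open MeasureTheory Set Filter Topology

namespace Vale.Agent.P099T

open Vale.Agent.P099

variable {N : ℕ} {T : PolygonalTable N} {Q : Set ℂ} {F : Set (Finset ℂ)}

/-! ### covering -/

/-- the medians are null sets -/
lemma ae_lam_ne {x y z : ℂ} (h : cr (y - x) (z - x) ≠ 0) :
    ∀ᵐ p ∂(volume : Measure ℂ), (mk3 x y z h).lam 0 p ≠ (mk3 x y z h).lam 1 p := by
  have hne : mid x y - z ≠ 0 := by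
    intro h0
    apply h
    have h1 : z = mid x y := (sub_eq_zero.1 h0).symm
    rw [h1]
    unfold cr mid
    simp only [Complex.sub_re, Complex.add_re, Complex.real_smul, Complex.re_ofReal_mul,
      Complex.sub_im, Complex.add_im, Complex.im_ofReal_mul]
    ring
  have h1 := volume_line z (mid x y - z) hne
  rw [measure_eq_zero_iff_ae_notMem] at h1
  filter_upwards [h1] with p hp h2
  apply hp
  rw [mk3_lam0, mk3_lam1, div_left_inj' h] at h2
  change cr (z - p) (mid x y - z) = 0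
  have h3 : cr (z - p) (mid x y - z) =
      -(1 / 2) * (cr (z - y) (p - y) - cr (x - z) (p - z)) := by
    unfold cr mid
    simp only [Complex.sub_re, Complex.add_re, Complex.real_smul, Complex.re_ofReal_mul,
      Complex.sub_im, Complex.add_im, Complex.im_ofReal_mul]
    ring
  rw [h3, h2, sub_self, mul_zero]

/-- a generic interior point lies in a tile -/
lemma exists_flag {x y z : ℂ} (hm : ({x, y, z} : Finset ℂ) ∈ Inn Q F)
    (h : cr (y - x) (z - x) ≠ 0) {p : ℂ} (hp : p ∈ (mk3 x y z h).table)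
    (h01 : (mk3 x y z h).lam 0 p ≠ (mk3 x y z h).lam 1 p)
    (h12 : (mk3 x y z h).lam 1 p ≠ (mk3 x y z h).lam 2 p)
    (h02 : (mk3 x y z h).lam 0 p ≠ (mk3 x y z h).lam 2 p) :
    ∃ s : Flag Q F, p ∈ s.tile.table := by
  set s : Flag Q F := ⟨x, y, z, hm, h⟩ with hs
  rw [Triangle.mem_table_iff] at hp
  have p0 : 0 < s.L 0 p := hp 0
  have p1 : 0 < s.L 1 p := hp 1
  have p2 : 0 < s.L 2 p := hp 2
  have h01' : s.L 0 p ≠ s.L 1 p := h01
  have h12' : s.L 1 p ≠ s.L 2 p := h12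
  have h02' : s.L 0 p ≠ s.L 2 p := h02
  clear_value s
  have key : ∀ t : Flag Q F, 0 < t.L 2 p → t.L 2 p < t.L 1 p → t.L 1 p < t.L 0 p →
      ∃ s : Flag Q F, p ∈ s.tile.table := fun t h1 h2 h3 =>
    ⟨t, (t.mem_tile p).2 ⟨h1, h2, h3⟩⟩
  rcases lt_or_gt_of_ne h01' with a | a
  · rcases lt_or_gt_of_ne h12' with b | b
    · -- L0 < L1 < L2
      refine key s.swap0.swap1.swap0 ?_ ?_ ?_ <;>
      · simp only [(Flag.L_swap0 _ _).1, (Flag.L_swap0 _ _).2.1, (Flag.L_swap0 _ _).2.2,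
          (Flag.L_swap1 _ _).1, (Flag.L_swap1 _ _).2.1, (Flag.L_swap1 _ _).2.2]
        assumption
    · rcases lt_or_gt_of_ne h02' with c | c
      · -- L0 < L2 < L1
        refine key s.swap0.swap1 ?_ ?_ ?_ <;>
        · simp only [(Flag.L_swap0 _ _).1, (Flag.L_swap0 _ _).2.1, (Flag.L_swap0 _ _).2.2,
            (Flag.L_swap1 _ _).1, (Flag.L_swap1 _ _).2.1, (Flag.L_swap1 _ _).2.2]
          assumption
      · -- L2 < L0 < L1
        refine key s.swap0 ?_ ?_ ?_ <;>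
        · simp only [(Flag.L_swap0 _ _).1, (Flag.L_swap0 _ _).2.1, (Flag.L_swap0 _ _).2.2]
          assumption
  · rcases lt_or_gt_of_ne h12' with b | b
    · rcases lt_or_gt_of_ne h02' with c | c
      · -- L1 < L0 < L2
        refine key s.swap0.swap1.swap0.swap1 ?_ ?_ ?_ <;>
        · simp only [(Flag.L_swap0 _ _).1, (Flag.L_swap0 _ _).2.1, (Flag.L_swap0 _ _).2.2,
            (Flag.L_swap1 _ _).1, (Flag.L_swap1 _ _).2.1, (Flag.L_swap1 _ _).2.2]
          assumption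
      · -- L1 < L2 < L0
        refine key s.swap1 ?_ ?_ ?_ <;>
        · simp only [(Flag.L_swap1 _ _).1, (Flag.L_swap1 _ _).2.1, (Flag.L_swap1 _ _).2.2]
          assumption
    · exact key s p2 b a

lemma Adapted.cover_ae (h : Adapted T F) :
    ∀ᵐ p ∂(volume : Measure ℂ), p ∈ T.Q → ∃ s : Flag T.Q F, p ∈ s.tile.table := by
  set V : Set ℂ := ⋃ τ ∈ F, (τ : Set ℂ) with hV
  have hVf : V.Countable := (h.trg.finite.biUnion fun τ _ => τ.finite_toSet).countable
  have h1 : ∀ᵐ p ∂(volume : Measure ℂ), ∀ τ ∈ F, p ∉ frontier (convexHull ℝ (τ : Set ℂ)) := by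
    rw [ae_ball_iff h.trg.finite.countable]
    intro τ _
    exact measure_eq_zero_iff_ae_notMem.1 ((convex_convexHull ℝ _).addHaar_frontier volume)
  have h2 : ∀ᵐ p ∂(volume : Measure ℂ), ∀ x ∈ V, ∀ y ∈ V, ∀ z ∈ V,
      ∀ hc : cr (y - x) (z - x) ≠ 0, (mk3 x y z hc).lam 0 p ≠ (mk3 x y z hc).lam 1 p := by
    rw [ae_ball_iff hVf]
    intro x _
    rw [ae_ball_iff hVf]
    intro y _
    rw [ae_ball_iff hVf]
    intro z _
    by_cases hc : cr (y - x) (z - x) ≠ 0
    · filter_upwards [ae_lam_ne hc] with p hp _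
      exact hp
    · exact ae_of_all _ fun p hc' => absurd hc' hc
  filter_upwards [h1, h2] with p g1 g2 hp
  obtain ⟨τ, hτ, hpτ⟩ := mem_iUnion₂.1 (h.trg.cover hp)
  have hint : p ∈ interior (convexHull ℝ (τ : Set ℂ)) := by
    by_contra hi
    exact g1 τ hτ ⟨subset_closure hpτ, hi⟩
  have hinn := h.inn hτ ⟨p, hint, hp⟩
  obtain ⟨x, y, z, rfl, hc⟩ := h.trg.nondeg τ hτ
  have hxV : x ∈ V := mem_biUnion hτ (by simp)
  have hyV : y ∈ V := mem_biUnion hτ (by simp)
  have hzV : z ∈ V := mem_biUnion hτ (by simp)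
  rw [← mk3_table hc] at hint
  refine exists_flag hinn hc hint (g2 x hxV y hyV z hzV hc) ?_ ?_
  · -- the triangle (y, z, x)
    set s : Flag T.Q F := ⟨x, y, z, hinn, hc⟩ with hs
    have h3 := g2 y hyV z hzV x hxV s.swap0.swap1.ne
    change s.swap0.swap1.L 0 p ≠ s.swap0.swap1.L 1 p at h3
    simp only [(Flag.L_swap0 _ _).1, (Flag.L_swap0 _ _).2.1, (Flag.L_swap0 _ _).2.2,
      (Flag.L_swap1 _ _).1, (Flag.L_swap1 _ _).2.1, (Flag.L_swap1 _ _).2.2] at h3
    exact h3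
  · set s : Flag T.Q F := ⟨x, y, z, hinn, hc⟩ with hs
    have h3 := g2 x hxV z hzV y hyV s.swap1.ne
    change s.swap1.L 0 p ≠ s.swap1.L 1 p at h3
    simp only [(Flag.L_swap1 _ _).1, (Flag.L_swap1 _ _).2.1, (Flag.L_swap1 _ _).2.2] at h3
    exact h3

/-! ### sides -/

lemma Adapted.tile_sub_Q (s : Flag Q F) : s.tile.table ⊆ Q := s.tile_sub.trans s.mem.2

lemma Flag.side0_sub (s : Flag Q F) : s.tile.side 0 ⊆ Q := by
  intro p hp
  rw [Triangle.mem_side_iff'] at hp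
  obtain ⟨h0, h1⟩ := hp
  have a1 := h1 1 (by decide)
  have a2 := h1 2 (by decide)
  unfold Flag.tile at h0 a1 a2
  rw [fl_lam0] at h0
  rw [fl_lam1] at a1
  rw [fl_lam2] at a2
  apply s.mem.2
  rw [← mk3_table s.ne, Triangle.mem_table_iff]
  intro i
  fin_cases i
  · change 0 < (mk3 s.x s.y s.z s.ne).lam 0 p
    linarith
  · change 0 < (mk3 s.x s.y s.z s.ne).lam 1 p
    linarith
  · change 0 < (mk3 s.x s.y s.z s.ne).lam 2 p
    linarith

lemma Flag.side1_sub (s : Flag Q F) : s.tile.side 1 ⊆ Q := by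
  intro p hp
  rw [Triangle.mem_side_iff'] at hp
  obtain ⟨h0, h1⟩ := hp
  have a1 := h1 0 (by decide)
  have a2 := h1 2 (by decide)
  unfold Flag.tile at h0 a1 a2
  rw [fl_lam1] at h0
  rw [fl_lam0] at a1
  rw [fl_lam2] at a2
  apply s.mem.2
  rw [← mk3_table s.ne, Triangle.mem_table_iff]
  intro i
  fin_cases i
  · change 0 < (mk3 s.x s.y s.z s.ne).lam 0 p
    linarith
  · change 0 < (mk3 s.x s.y s.z s.ne).lam 1 p
    linarith
  · change 0 < (mk3 s.x s.y s.z s.ne).lam 2 p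
    linarith

lemma Flag.side2_sub (s : Flag Q F) : s.tile.side 2 ⊆ openSegment ℝ s.x s.y := by
  intro p hp
  rw [Triangle.mem_side_iff'] at hp
  obtain ⟨h0, h1⟩ := hp
  have a1 := h1 0 (by decide)
  have a2 := h1 1 (by decide)
  unfold Flag.tile at h0 a1 a2
  rw [fl_lam2] at h0
  rw [fl_lam0] at a1
  rw [fl_lam1] at a2
  have h2 : p ∈ (mk3 s.x s.y s.z s.ne).side 2 := by
    rw [Triangle.mem_side_iff']
    refine ⟨by linarith, ?_⟩
    intro j hj
    fin_cases j
    · change 0 < (mk3 s.x s.y s.z s.ne).lam 0 p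
      linarith
    · change 0 < (mk3 s.x s.y s.z s.ne).lam 1 p
      linarith
    · exact absurd rfl hj
  exact h2

end Vale.Agent.P099T
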