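import Vale.Agent.P099.H184.PT.CutEx2

set_option linter.all false

open MeasureTheory Set Filter Topology

namespace Vale.Agent.P099T

open Vale.Agent.P099

/-! ### walls -/

lemma nsq_pos {d : ℂ} (hd : d ≠ 0) : 0 < dt d d := by
  have := Complex.normSq_pos.2 hd
  rwa [Complex.normSq_apply] at this

lemma cr_I_mul (d w : ℂ) : cr (Complex.I * d) w = - dt d w := by
  unfold cr dt
  simp only [Complex.I_mul_re, Complex.I_mul_im]
  ring

lemma decomp (d w : ℂ) : (dt d d) • w = (dt d w) • d + (cr d w) • (Complex.I * d) := by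
  apply Complex.ext
  · simp only [Complex.add_re, Complex.real_smul, Complex.re_ofReal_mul, Complex.I_mul_re]
    unfold dt cr
    ring
  · simp only [Complex.add_im, Complex.real_smul, Complex.im_ofReal_mul, Complex.I_mul_im]
    unfold dt cr
    ring

lemma parallel {d w : ℂ} (hd : d ≠ 0) (h : cr d w = 0) : w = (dt d w / dt d d) • d := by
  have h1 := decomp d w
  rw [h, zero_smul, add_zero] at h1
  have h2 := nsq_pos hd
  rw [div_eq_inv_mul, mul_smul, ← h1, smul_smul, inv_mul_cancel₀ h2.ne', one_smul]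

lemma zero_of_signs {s t gx gy : ℝ} (h : (0 ≤ gx ∧ 0 ≤ gy) ∨ (gx ≤ 0 ∧ gy ≤ 0)) (hs : 0 < s)
    (ht : 0 < t) (h0 : s * gx + t * gy = 0) : gx = 0 ∧ gy = 0 := by
  rcases h with ⟨h1, h2⟩ | ⟨h1, h2⟩
  · have a1 : 0 ≤ s * gx := mul_nonneg hs.le h1
    have a2 : 0 ≤ t * gy := mul_nonneg ht.le h2
    have b1 : s * gx = 0 := by linarith
    have b2 : t * gy = 0 := by linarith
    exact ⟨(mul_eq_zero.1 b1).resolve_left hs.ne', (mul_eq_zero.1 b2).resolve_left ht.ne'⟩
  · have a1 : s * gx ≤ 0 := mul_nonpos_of_nonneg_of_nonpos hs.le h1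
    have a2 : t * gy ≤ 0 := mul_nonpos_of_nonneg_of_nonpos ht.le h2
    have b1 : s * gx = 0 := by linarith
    have b2 : t * gy = 0 := by linarith
    exact ⟨(mul_eq_zero.1 b1).resolve_left hs.ne', (mul_eq_zero.1 b2).resolve_left ht.ne'⟩

lemma neg_of_signs {s t gx gy s' t' : ℝ} (h : (0 ≤ gx ∧ 0 ≤ gy) ∨ (gx ≤ 0 ∧ gy ≤ 0))
    (hne : ¬ (gx = 0 ∧ gy = 0)) (hs : 0 < s) (ht : 0 < t) (h0 : s * gx + t * gy ≤ 0)
    (hs' : 0 < s') (ht' : 0 < t') : s' * gx + t' * gy < 0 := by
  rcases h with ⟨h1, h2⟩ | ⟨h1, h2⟩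
  · exfalso
    apply hne
    have a1 : 0 ≤ s * gx := mul_nonneg hs.le h1
    have a2 : 0 ≤ t * gy := mul_nonneg ht.le h2
    exact zero_of_signs (Or.inl ⟨h1, h2⟩) hs ht (by linarith)
  · have a1 : s' * gx ≤ 0 := mul_nonpos_of_nonneg_of_nonpos hs'.le h1
    have a2 : t' * gy ≤ 0 := mul_nonpos_of_nonneg_of_nonpos ht'.le h2
    refine lt_of_le_of_ne (by linarith) ?_
    intro h3
    exact hne (zero_of_signs (Or.inr ⟨h1, h2⟩) hs' ht' h3)

variable {N : ℕ} {T : PolygonalTable N} {Q : Set ℂ} {F : Set (Finset ℂ)}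

lemma NoCross.pair {c d : ℂ} (h : NoCross F c d) {τ : Finset ℂ} (hτ : τ ∈ F) {x y : ℂ}
    (hx : x ∈ τ) (hy : y ∈ τ) : (0 ≤ cr d (x - c) ∧ 0 ≤ cr d (y - c)) ∨
      (cr d (x - c) ≤ 0 ∧ cr d (y - c) ≤ 0) := by
  rcases h τ hτ with h1 | h1
  · exact Or.inl ⟨h1 x hx, h1 y hy⟩
  · exact Or.inr ⟨h1 x hx, h1 y hy⟩

/-- an open side of a triangle which meets a wall is inside the wall -/
lemma Adapted.side_of_mem (h : Adapted T F) {τ : Finset ℂ} (hτ : τ ∈ F) {x y : ℂ} (hx : x ∈ τ)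
    (hy : y ∈ τ) (hxy : x ≠ y) {q : ℂ} (hq : q ∈ openSegment ℝ x y) {j : Fin N}
    (hj : q ∈ segment ℝ (T.a j) (T.b j)) :
    openSegment ℝ x y ⊆ T.side j ∧ cr (T.b j - T.a j) (y - x) = 0 := by
  set a := T.a j with ha
  set b := T.b j with hb
  have hd : b - a ≠ 0 := sub_ne_zero.2 (T.ne j).symm
  have hn := nsq_pos hd
  obtain ⟨s, t, hs, ht, hst, hq'⟩ := hq
  -- the line of the wall
  have g0 : cr (b - a) (q - a) = 0 := cr_segment hj
  have g1 : s * cr (b - a) (x - a) + t * cr (b - a) (y - a) = 0 := by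
    rw [← cr_comb _ _ hst, hq', g0]
  obtain ⟨gx, gy⟩ := zero_of_signs ((h.line j).pair hτ hx hy) hs ht g1
  have gxy : cr (b - a) (y - x) = 0 := by
    have : cr (b - a) (y - x) = cr (b - a) (y - a) - cr (b - a) (x - a) := by
      unfold cr
      simp only [Complex.sub_re, Complex.sub_im]
      ring
    rw [this, gx, gy, sub_zero]
  have hpar := parallel hd gxy
  have hdt : dt (b - a) (y - x) ≠ 0 := by
    intro h0
    rw [h0, zero_div, zero_smul] at hpar
    exact hxy (sub_eq_zero.1 hpar).symm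
  obtain ⟨u, v, hu, hv, huv, hq''⟩ := hj
  have hqa : dt (b - a) (q - a) = v * dt (b - a) (b - a) := by
    have hu' : u = 1 - v := by linarith
    rw [← hq'', hu']
    unfold dt
    simp only [Complex.sub_re, Complex.add_re, Complex.real_smul, Complex.re_ofReal_mul,
      Complex.sub_im, Complex.add_im, Complex.im_ofReal_mul]
    ring
  have hqb : dt (b - a) (q - b) = - (u * dt (b - a) (b - a)) := by
    have hv' : v = 1 - u := by linarith
    rw [← hq'', hv']
    unfold dt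
    simp only [Complex.sub_re, Complex.add_re, Complex.real_smul, Complex.re_ofReal_mul,
      Complex.sub_im, Complex.add_im, Complex.im_ofReal_mul]
    ring
  -- the two perpendiculars
  have k1 : s * cr (Complex.I * (b - a)) (x - a) + t * cr (Complex.I * (b - a)) (y - a) ≤ 0 := by
    rw [← cr_comb _ _ hst, hq', cr_I_mul, hqa]
    have := mul_nonneg hv hn.le
    linarith
  have k2 : s * (-cr (Complex.I * (b - a)) (x - b)) +
      t * (-cr (Complex.I * (b - a)) (y - b)) ≤ 0 := by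
    have e : s * (-cr (Complex.I * (b - a)) (x - b)) + t * (-cr (Complex.I * (b - a)) (y - b)) =
        - (s * cr (Complex.I * (b - a)) (x - b) + t * cr (Complex.I * (b - a)) (y - b)) := by ring
    rw [e, ← cr_comb _ _ hst, hq', cr_I_mul, hqb]
    have := mul_nonneg hu hn.le
    linarith
  have n1 : ¬ (cr (Complex.I * (b - a)) (x - a) = 0 ∧ cr (Complex.I * (b - a)) (y - a) = 0) := by
    rintro ⟨e1, e2⟩
    rw [cr_I_mul] at e1 e2
    apply hdt
    have : dt (b - a) (y - x) = dt (b - a) (y - a) - dt (b - a) (x - a) := by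
      unfold dt
      simp only [Complex.sub_re, Complex.sub_im]
      ring
    rw [this]
    linarith
  have n2 : ¬ (-cr (Complex.I * (b - a)) (x - b) = 0 ∧
      -cr (Complex.I * (b - a)) (y - b) = 0) := by
    rintro ⟨e1, e2⟩
    rw [cr_I_mul] at e1 e2
    apply hdt
    have : dt (b - a) (y - x) = dt (b - a) (y - b) - dt (b - a) (x - b) := by
      unfold dt
      simp only [Complex.sub_re, Complex.sub_im]
      ring
    rw [this]
    linarith
  refine ⟨?_, gxy⟩
  rintro p ⟨s', t', hs', ht', hst', rfl⟩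
  have m0 : cr (b - a) (s' • x + t' • y - a) = 0 := by
    rw [cr_comb _ _ hst', gx, gy]; ring
  have m1 : cr (Complex.I * (b - a)) (s' • x + t' • y - a) < 0 := by
    rw [cr_comb _ _ hst']
    exact neg_of_signs ((h.pa j).pair hτ hx hy) n1 hs ht k1 hs' ht'
  have m2 : 0 < cr (Complex.I * (b - a)) (s' • x + t' • y - b) := by
    rw [cr_comb _ _ hst']
    have h3 : (0 ≤ -cr (Complex.I * (b - a)) (x - b) ∧ 0 ≤ -cr (Complex.I * (b - a)) (y - b)) ∨
        (-cr (Complex.I * (b - a)) (x - b) ≤ 0 ∧ -cr (Complex.I * (b - a)) (y - b) ≤ 0) := by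
      rcases (h.pb j).pair hτ hx hy with ⟨h4, h5⟩ | ⟨h4, h5⟩
      · exact Or.inr ⟨neg_nonpos.2 h4, neg_nonpos.2 h5⟩
      · exact Or.inl ⟨neg_nonneg.2 h4, neg_nonneg.2 h5⟩
    have := neg_of_signs h3 n2 hs ht k2 hs' ht'
    linarith
  rw [cr_I_mul] at m1 m2
  set p := s' • x + t' • y with hp
  set r := dt (b - a) (p - a) / dt (b - a) (b - a) with hr
  have hr0 : 0 < r := div_pos (by linarith) hn
  have hr1 : r < 1 := by
    rw [hr, div_lt_one hn]
    have : dt (b - a) (p - b) = dt (b - a) (p - a) - dt (b - a) (b - a) := by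
      unfold dt
      simp only [Complex.sub_re, Complex.sub_im]
      ring
    rw [this] at m2
    linarith
  have hpr := parallel hd m0
  refine ⟨1 - r, r, by linarith, hr0, by ring, ?_⟩
  have : p = a + r • (b - a) := by
    rw [← hr] at hpr
    rw [← hpr]
    ring
  rw [← ha, ← hb, this, sub_smul, one_smul, smul_sub]
  ring

/-- the closure of the triangles inside -/
lemma Adapted.hull_sub_closure (h : Adapted T F) {τ : Finset ℂ} (hτ : τ ∈ Inn T.Q F) :
    convexHull ℝ (τ : Set ℂ) ⊆ closure T.Q := by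
  obtain ⟨x, y, z, rfl, hc⟩ := h.trg.nondeg τ hτ.1
  have h1 : (interior (convexHull ℝ (({x, y, z} : Finset ℂ) : Set ℂ))).Nonempty := by
    rw [← mk3_table hc]
    exact Triangle.table_nonempty _
  have h2 := (convex_convexHull ℝ (({x, y, z} : Finset ℂ) :
    Set ℂ)).closure_interior_eq_closure_of_nonempty_interior h1
  refine subset_closure.trans ?_
  rw [← h2]
  exact closure_mono hτ.2

lemma Adapted.exists_wall (h : Adapted T F) (s : Flag T.Q F)
    (ho : ¬ openSegment ℝ s.x s.y ⊆ T.Q) :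
    ∃ j, openSegment ℝ s.x s.y ⊆ T.side j := by
  rw [Set.not_subset] at ho
  obtain ⟨q, hq, hq'⟩ := ho
  have hxs : s.x ∈ ({s.x, s.y, s.z} : Finset ℂ) := by simp
  have hys : s.y ∈ ({s.x, s.y, s.z} : Finset ℂ) := by simp
  have h1 : q ∈ convexHull ℝ (({s.x, s.y, s.z} : Finset ℂ) : Set ℂ) := by
    have h2 := segment_subset_convexHull (𝕜 := ℝ) (s := (({s.x, s.y, s.z} : Finset ℂ) : Set ℂ))
      hxs hys
    exact h2 (openSegment_subset_segment ℝ _ _ hq)
  have h3 := h.hull_sub_closure s.mem h1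
  have h4 : q ∈ frontier T.Q := by
    rw [T.isOpen.frontier_eq]
    exact ⟨h3, hq'⟩
  rw [T.frontier_eq] at h4
  obtain ⟨j, hj⟩ := mem_iUnion.1 h4
  have hxy : s.x ≠ s.y := by
    intro h0; apply s.ne; rw [h0]; unfold cr; simp
  exact ⟨j, (h.side_of_mem s.mem.1 hxs hys hxy hq hj).1⟩

end Vale.Agent.P099T
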