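import Vale.Agent.P099.H184.PT.CutEx3

set_option linter.all false

open MeasureTheory Set Filter Topology

namespace Vale.Agent.P099T

open Vale.Agent.P099

variable {N : ℕ} {T : PolygonalTable N} {Q : Set ℂ} {F : Set (Finset ℂ)}

lemma Flag.xy (s : Flag Q F) : s.x ≠ s.y := by
  intro h0; apply s.ne; rw [h0]; unfold cr; simp

lemma Flag.yz (s : Flag Q F) : s.y ≠ s.z := by
  intro h0; apply s.ne; rw [h0]; unfold cr; ring

lemma Flag.hx (s : Flag Q F) : s.x ∈ ({s.x, s.y, s.z} : Finset ℂ) := by simp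

lemma Flag.hy (s : Flag Q F) : s.y ∈ ({s.x, s.y, s.z} : Finset ℂ) := by simp

lemma Adapted.wall_cases (h : Adapted T F) {s : Flag T.Q F} {i : Fin 3} (hi : h.cx.σ s i = s) :
    i = 2 ∧ ¬ openSegment ℝ s.x s.y ⊆ T.Q := by
  fin_cases i
  · exfalso
    have h1 : s.swap0 = s := hi
    exact s.xy (congrArg Flag.y h1)
  · exfalso
    have h1 : s.swap1 = s := hi
    exact s.yz (congrArg Flag.z h1)
  · refine ⟨rfl, fun ho => ?_⟩
    have h1 : h.swap2 s = s := hi
    exact h.swap2_ne ho h1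

lemma Adapted.glued (h : Adapted T F) (s : Flag T.Q F) (i : Fin 3) (hi : h.cx.σ s i ≠ s) :
    (h.cx.T s).side i ⊆ T.Q := by
  fin_cases i
  · exact s.side0_sub
  · exact s.side1_sub
  · have ho : openSegment ℝ s.x s.y ⊆ T.Q := by
      by_contra ho
      exact hi (h.swap2_neg ho)
    exact s.side2_sub.trans ho

lemma Adapted.refl_eq (h : Adapted T F) (s : Flag T.Q F) (i : Fin 3) (hi : h.cx.σ s i = s)
    {q : ℂ} (hq : q ∈ (h.cx.T s).side i) (j : Fin N) (hj : q ∈ T.side j) (u : ℂ) :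
    T.refl j u = (h.cx.T s).refl i u := by
  obtain ⟨rfl, ho⟩ := h.wall_cases hi
  have h1 : q ∈ openSegment ℝ s.x s.y := s.side2_sub hq
  have h2 := (h.side_of_mem s.mem.1 s.hx s.hy s.xy h1
    (openSegment_subset_segment ℝ _ _ hj)).2
  have hd : T.b j - T.a j ≠ 0 := sub_ne_zero.2 (T.ne j).symm
  have h3 := parallel hd h2
  set r := dt (T.b j - T.a j) (s.y - s.x) / dt (T.b j - T.a j) (T.b j - T.a j) with hr
  have hr0 : r ≠ 0 := by
    intro h0
    rw [h0, zero_smul] at h3
    exact s.xy (sub_eq_zero.1 h3).symm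
  have h4 : (h.cx.T s).P (2 + 2) - (h.cx.T s).P (2 + 1) = (r / 2) • (T.b j - T.a j) := by
    change mid s.x s.y - s.x = _
    have h5 : mid s.x s.y - s.x = (1 / 2 : ℝ) • (s.y - s.x) := by
      unfold mid
      rw [smul_sub]
      have : s.x = (1 / 2 : ℝ) • s.x + (1 / 2 : ℝ) • s.x := by
        rw [← add_smul]; norm_num
      nth_rewrite 2 [this]
      ring
    rw [h5, h3, smul_smul]
    congr 1
    ring
  have h6 : Submodule.span ℝ {(h.cx.T s).P (2 + 2) - (h.cx.T s).P (2 + 1)} =
      Submodule.span ℝ {T.b j - T.a j} := by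
    rw [h4]
    exact Submodule.span_singleton_smul_eq (IsUnit.mk0 _ (div_ne_zero hr0 two_ne_zero)) _
  change (Submodule.span ℝ {T.b j - T.a j}).reflection u =
    (Submodule.span ℝ {(h.cx.T s).P (2 + 2) - (h.cx.T s).P (2 + 1)}).reflection u
  congr 2
  exact h6.symm

/-- tiles inside the same triangle are connected -/
lemma Adapted.conn_same (h : Adapted T F) {s t : Flag T.Q F}
    (hst : ({t.x, t.y, t.z} : Finset ℂ) = {s.x, s.y, s.z}) :
    Relation.ReflTransGen (fun a b => ∃ i, b = h.cx.σ a i) s t := by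
  have e0 : ∀ a : Flag T.Q F,
      Relation.ReflTransGen (fun a b => ∃ i, b = h.cx.σ a i) a a.swap0 := fun a =>
    Relation.ReflTransGen.single ⟨0, rfl⟩
  have e1 : ∀ a : Flag T.Q F,
      Relation.ReflTransGen (fun a b => ∃ i, b = h.cx.σ a i) a a.swap1 := fun a =>
    Relation.ReflTransGen.single ⟨1, rfl⟩
  rcases Flag.six hst with rfl | rfl | rfl | rfl | rfl | rfl
  · exact Relation.ReflTransGen.refl
  · exact e0 _
  · exact (e0 _).trans (e1 _)
  · exact ((e0 _).trans (e1 _)).trans (e0 _)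
  · exact (((e0 _).trans (e1 _)).trans (e0 _)).trans (e1 _)
  · exact ((((e0 _).trans (e1 _)).trans (e0 _)).trans (e1 _)).trans (e0 _)

lemma Adapted.edge_cases (h : Adapted T F) {τ : Finset ℂ} (hτ : τ ∈ Inn T.Q F) {x y : ℂ}
    (hx : x ∈ τ) (hy : y ∈ τ) (hxy : x ≠ y) :
    openSegment ℝ x y ⊆ T.Q ∨ Disjoint (openSegment ℝ x y) T.Q := by
  by_cases ho : openSegment ℝ x y ⊆ T.Q
  · exact Or.inl ho
  · right
    rw [Set.not_subset] at ho
    obtain ⟨q, hq, hq'⟩ := ho
    have h1 : q ∈ convexHull ℝ (τ : Set ℂ) :=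
      segment_subset_convexHull (𝕜 := ℝ) (s := (τ : Set ℂ)) hx hy
        (openSegment_subset_segment ℝ _ _ hq)
    have h4 : q ∈ frontier T.Q := by
      rw [T.isOpen.frontier_eq]
      exact ⟨h.hull_sub_closure hτ h1, hq'⟩
    rw [T.frontier_eq] at h4
    obtain ⟨j, hj⟩ := mem_iUnion.1 h4
    have h5 := (h.side_of_mem hτ.1 hx hy hxy hq hj).1
    rw [Set.disjoint_left]
    intro p hp hpQ
    have h6 : p ∈ frontier T.Q := by
      rw [T.frontier_eq]
      exact mem_iUnion.2 ⟨j, openSegment_subset_segment ℝ _ _ (h5 hp)⟩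
    rw [T.isOpen.frontier_eq] at h6
    exact h6.2 hpQ

lemma Adapted.conn (h : Adapted T F) (s s' : Flag T.Q F) :
    Relation.ReflTransGen (fun a b => ∃ i, b = h.cx.σ a i) s s' := by
  have h1 := conn_trg T.isOpen T.isConnected h.trg (fun τ hτ => h.disj_frontier hτ)
    (fun τ hτ x hx y hy hxy => h.edge_cases hτ hx hy hxy) _ s.mem _ s'.mem
  have key : ∀ τ : Finset ℂ, Relation.ReflTransGen (fun a b => b ∈ Inn T.Q F ∧ Adj T.Q a b)
      {s.x, s.y, s.z} τ → ∀ t : Flag T.Q F, ({t.x, t.y, t.z} : Finset ℂ) = τ →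
      Relation.ReflTransGen (fun a b => ∃ i, b = h.cx.σ a i) s t := by
    intro τ hτ
    induction hτ with
    | refl =>
      intro t ht
      exact h.conn_same ht
    | tail h2 h3 ih =>
      rename_i b c
      intro t ht
      obtain ⟨hc, x, y, v, w, hb, hcc, hneg, hop⟩ := h3
      have hv0 : cr (y - x) (v - x) ≠ 0 := by
        intro h0; rw [h0, zero_mul] at hneg; exact lt_irrefl _ hneg
      have hbI : b ∈ Inn T.Q F := by
        rcases h2.cases_tail with h4 | ⟨d, -, h5⟩
        · rw [h4]; exact s.mem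
        · exact h5.1
      set r : Flag T.Q F := ⟨x, y, v, by rw [← hb]; exact hbI, hv0⟩ with hr
      have h6 := ih r hb.symm
      have h7 : Relation.ReflTransGen (fun a b => ∃ i, b = h.cx.σ a i) r (h.across r hop) := by
        refine Relation.ReflTransGen.single ⟨2, ?_⟩
        change h.across r hop = h.swap2 r
        rw [h.swap2_pos]
      have h8 : h.third r hop = w := by
        refine third_unique h.trg (h.third_mem r hop).1 (by rw [← hcc]; exact hc.1) ?_
        have h9 := h.third_neg r hop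
        change 0 < cr (y - x) (h.third r hop - x) * cr (y - x) (w - x)
        change cr (y - x) (v - x) * cr (y - x) (h.third r hop - x) < 0 at h9
        set A := cr (y - x) (v - x)
        set B := cr (y - x) (h.third r hop - x)
        set C := cr (y - x) (w - x)
        have h10 : 0 < (A * B) * (A * C) := mul_pos_of_neg_of_neg h9 hneg
        have h11 : (A * B) * (A * C) = (B * C) * A ^ 2 := by ring
        rw [h11] at h10
        by_contra h12
        have h13 : (B * C) * A ^ 2 ≤ 0 :=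
          mul_nonpos_of_nonpos_of_nonneg (not_lt.1 h12) (sq_nonneg A)
        linarith
      refine (h6.trans h7).trans (h.conn_same ?_)
      change ({t.x, t.y, t.z} : Finset ℂ) = {x, y, h.third r hop}
      rw [h8, ht, hcc]
  exact key _ h1 s' rfl

/-- every wall is a union of sides of tiles (and null) -/
lemma Adapted.all (h : Adapted T F) (j : Fin N) :
    ∃ (s : Flag T.Q F) (i : Fin 3), h.cx.σ s i = s ∧ (h.cx.T s).side i ⊆ T.side j := by
  set V : Set ℂ := ⋃ τ ∈ F, (τ : Set ℂ) with hV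
  have hVf : V.Finite := h.trg.finite.biUnion fun τ _ => τ.finite_toSet
  -- a point of the wall which is not a vertex
  obtain ⟨q, hq, hqV⟩ : ∃ q ∈ T.side j, q ∉ V := by
    by_contra hcon
    push Not at hcon
    have h1 : (T.side j).Finite := hVf.subset hcon
    have h2 : Set.InjOn (fun t : ℝ => (1 - t) • T.a j + t • T.b j) (Ioo (0:ℝ) 1) := by
      intro t _ t' _ htt
      have h3 : (t - t') • (T.b j - T.a j) = 0 := by
        have h4 : (1 - t) • T.a j + t • T.b j = (1 - t') • T.a j + t' • T.b j := htt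
        have h5 : (t - t') • (T.b j - T.a j) =
            ((1 - t) • T.a j + t • T.b j) - ((1 - t') • T.a j + t' • T.b j) := by module
        rw [h5, h4, sub_self]
      rcases smul_eq_zero.1 h3 with h6 | h6
      · exact sub_eq_zero.1 h6
      · exact absurd (sub_eq_zero.1 h6).symm (T.ne j)
    have h7 : (fun t : ℝ => (1 - t) • T.a j + t • T.b j) '' (Ioo (0:ℝ) 1) ⊆ T.side j := by
      rintro _ ⟨t, ht, rfl⟩
      exact ⟨1 - t, t, by linarith [ht.2], ht.1, by ring, rfl⟩
    exact (Ioo_infinite (show (0:ℝ) < 1 by norm_num)).image h2 (h1.subset h7)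
  have hqf : q ∈ frontier T.Q := by
    rw [T.frontier_eq]
    exact mem_iUnion.2 ⟨j, openSegment_subset_segment ℝ _ _ hq⟩
  have hqQ : q ∉ T.Q := by
    rw [T.isOpen.frontier_eq] at hqf
    exact hqf.2
  -- it lies in a triangle inside the table
  obtain ⟨τ, hτ, hqτ⟩ : ∃ τ ∈ Inn T.Q F, q ∈ convexHull ℝ (τ : Set ℂ) := by
    have h1 : T.Q ⊆ ⋃ τ ∈ Inn T.Q F, convexHull ℝ (τ : Set ℂ) := by
      intro p hp
      obtain ⟨τ, hτ, hpτ⟩ := mem_iUnion₂.1 (h.trg.cover hp)
      obtain ⟨x, y, z, rfl, hc⟩ := h.trg.nondeg τ hτ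
      have h2 : (interior (convexHull ℝ (({x, y, z} : Finset ℂ) : Set ℂ))).Nonempty := by
        rw [← mk3_table hc]
        exact Triangle.table_nonempty _
      have h3 := (convex_convexHull ℝ (({x, y, z} : Finset ℂ) :
        Set ℂ)).closure_interior_eq_closure_of_nonempty_interior h2
      have h4 : p ∈ closure (interior (convexHull ℝ (({x, y, z} : Finset ℂ) : Set ℂ))) := by
        rw [h3]; exact subset_closure hpτ
      have h5 := mem_closure_iff.1 h4 T.Q T.isOpen hp
      refine mem_iUnion₂.2 ⟨_, h.inn hτ ?_, hpτ⟩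
      rwa [inter_comm]
    have h6 : IsClosed (⋃ τ ∈ Inn T.Q F, convexHull ℝ (τ : Set ℂ)) := by
      refine (h.trg.finite.subset fun τ hτ => hτ.1).isClosed_biUnion fun τ _ => ?_
      exact (τ.finite_toSet.isCompact_convexHull (𝕜 := ℝ)).isClosed
    have h7 := closure_minimal h1 h6 (frontier_subset_closure hqf)
    obtain ⟨τ, hτ, hqτ⟩ := mem_iUnion₂.1 h7
    exact ⟨τ, hτ, hqτ⟩
  obtain ⟨x, y, z, rfl, hc⟩ := h.trg.nondeg τ hτ.1
  have hqV' : ∀ v ∈ ({x, y, z} : Finset ℂ), q ≠ v := by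
    intro v hv h0
    apply hqV
    rw [h0]
    exact mem_biUnion hτ.1 hv
  have hco : (({x, y, z} : Finset ℂ) : Set ℂ) = ({x, y, z} : Set ℂ) := by simp
  rw [hco] at hqτ
  rcases tri_class hc hqτ (hqV' x (by simp)) (hqV' y (by simp)) (hqV' z (by simp)) with
    h8 | ⟨x', y', z', he, hc', hq'⟩
  · exfalso
    rw [← hco] at h8
    exact hqQ (hτ.2 h8)
  · set s : Flag T.Q F := ⟨x', y', z', by rw [← he]; exact hτ, hc'⟩ with hs
    have ho : ¬ openSegment ℝ s.x s.y ⊆ T.Q := fun ho => hqQ (ho hq')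
    refine ⟨s, 2, h.swap2_neg ho, ?_⟩
    exact s.side2_sub.trans (h.side_of_mem s.mem.1 s.hx s.hy s.xy hq'
      (openSegment_subset_segment ℝ _ _ hq)).1

/-- the complex of the flags is the table cut into triangles -/
theorem Adapted.cut (h : Adapted T F) : Cut T h.cx where
  sub := fun s => Adapted.tile_sub_Q s
  disj := fun s s' hs => Flag.disj h.trg hs
  cover := h.cover_ae
  glued := h.glued
  wall := fun s i hi => by
    obtain ⟨rfl, ho⟩ := h.wall_cases hi
    obtain ⟨j, hj⟩ := h.exists_wall s ho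
    exact ⟨j, s.side2_sub.trans hj⟩
  refl_eq := fun s i hi x hx j hj u => h.refl_eq s i hi hx j hj u
  all := h.all
  conn := h.conn

end Vale.Agent.P099T
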