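import Vale.Agent.P099.H184.PT.Tri

set_option linter.all false

open MeasureTheory Set Filter Topology

namespace Vale.Agent.P099T

open Vale.Agent.P099

/-- midpoint -/
noncomputable def mid (x y : ℂ) : ℂ := (1 / 2 : ℝ) • x + (1 / 2 : ℝ) • y

/-- centre -/
noncomputable def cen (x y z : ℂ) : ℂ := (1 / 3 : ℝ) • x + (1 / 3 : ℝ) • y + (1 / 3 : ℝ) • z

lemma mid_comm (x y : ℂ) : mid x y = mid y x := by
  unfold mid
  rw [add_comm]

lemma cen_swap0 (x y z : ℂ) : cen x y z = cen y x z := by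
  unfold cen
  rw [add_comm ((1 / 3 : ℝ) • x)]

lemma cen_swap1 (x y z : ℂ) : cen x y z = cen x z y := by
  unfold cen
  rw [add_assoc, add_assoc, add_comm ((1 / 3 : ℝ) • y)]

lemma cr_swap0 (x y z : ℂ) : cr (x - y) (z - y) = - cr (y - x) (z - x) := by
  unfold cr
  simp only [Complex.sub_re, Complex.sub_im]
  ring

lemma cr_swap1 (x y z : ℂ) : cr (z - x) (y - x) = - cr (y - x) (z - x) := by
  unfold cr
  ring

lemma cr_tile (x y z : ℂ) : cr (mid x y - x) (cen x y z - x) = (1 / 6) * cr (y - x) (z - x) := by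
  unfold cr mid cen
  simp only [Complex.sub_re, Complex.add_re, Complex.real_smul, Complex.re_ofReal_mul,
    Complex.sub_im, Complex.add_im, Complex.im_ofReal_mul]
  ring

lemma cr_tile_ne {x y z : ℂ} (h : cr (y - x) (z - x) ≠ 0) :
    cr (mid x y - x) (cen x y z - x) ≠ 0 := by
  rw [cr_tile]
  exact mul_ne_zero (by norm_num) h

/-- the tile of a flag: vertex, midpoint of the side, centre -/
noncomputable def fl (x y z : ℂ) (h : cr (y - x) (z - x) ≠ 0) : Triangle :=
  mk3 x (mid x y) (cen x y z) (cr_tile_ne h)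

section fl

variable {x y z : ℂ} (h : cr (y - x) (z - x) ≠ 0)

lemma fl_P0 : (fl x y z h).P 0 = x := rfl
lemma fl_P1 : (fl x y z h).P 1 = mid x y := rfl
lemma fl_P2 : (fl x y z h).P 2 = cen x y z := rfl

lemma fl_lam0 (p : ℂ) : (fl x y z h).lam 0 p = (mk3 x y z h).lam 0 p - (mk3 x y z h).lam 1 p := by
  unfold fl
  rw [mk3_lam0, mk3_lam0, mk3_lam1, cr_tile, ← sub_div, div_eq_div_iff
    (mul_ne_zero (by norm_num) h) h]
  unfold cr mid cen
  simp only [Complex.sub_re, Complex.add_re, Complex.real_smul, Complex.re_ofReal_mul,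
    Complex.sub_im, Complex.add_im, Complex.im_ofReal_mul]
  ring

lemma fl_lam1 (p : ℂ) :
    (fl x y z h).lam 1 p = 2 * ((mk3 x y z h).lam 1 p - (mk3 x y z h).lam 2 p) := by
  unfold fl
  rw [mk3_lam1, mk3_lam1, mk3_lam2, cr_tile, ← sub_div, ← mul_div_assoc, div_eq_div_iff
    (mul_ne_zero (by norm_num) h) h]
  unfold cr cen
  simp only [Complex.sub_re, Complex.add_re, Complex.real_smul, Complex.re_ofReal_mul,
    Complex.sub_im, Complex.add_im, Complex.im_ofReal_mul]
  ring

lemma fl_lam2 (p : ℂ) : (fl x y z h).lam 2 p = 3 * (mk3 x y z h).lam 2 p := by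
  unfold fl
  rw [mk3_lam2, mk3_lam2, cr_tile, ← mul_div_assoc, div_eq_div_iff
    (mul_ne_zero (by norm_num) h) h]
  unfold cr mid
  simp only [Complex.sub_re, Complex.add_re, Complex.real_smul, Complex.re_ofReal_mul,
    Complex.sub_im, Complex.add_im, Complex.im_ofReal_mul]
  ring

lemma mem_fl_iff (p : ℂ) : p ∈ (fl x y z h).table ↔ 0 < (mk3 x y z h).lam 2 p ∧
    (mk3 x y z h).lam 2 p < (mk3 x y z h).lam 1 p ∧
    (mk3 x y z h).lam 1 p < (mk3 x y z h).lam 0 p := by
  rw [Triangle.mem_table_iff]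
  constructor
  · intro h1
    have h2 := h1 0
    have h3 := h1 1
    have h4 := h1 2
    rw [fl_lam0] at h2
    rw [fl_lam1] at h3
    rw [fl_lam2] at h4
    refine ⟨?_, ?_, ?_⟩ <;> linarith
  · rintro ⟨h1, h2, h3⟩ i
    fin_cases i
    · change 0 < (fl x y z h).lam 0 p
      rw [fl_lam0]; linarith
    · change 0 < (fl x y z h).lam 1 p
      rw [fl_lam1]; linarith
    · change 0 < (fl x y z h).lam 2 p
      rw [fl_lam2]; linarith

lemma fl_sub : (fl x y z h).table ⊆ (mk3 x y z h).table := by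
  intro p hp
  rw [mem_fl_iff] at hp
  rw [Triangle.mem_table_iff]
  intro i
  fin_cases i
  · change 0 < (mk3 x y z h).lam 0 p
    linarith [hp.1, hp.2.1, hp.2.2]
  · change 0 < (mk3 x y z h).lam 1 p
    linarith [hp.1, hp.2.1, hp.2.2]
  · exact hp.1

/-- points near the middle of the side `x y` -/
lemma near_side : (∀ᶠ t : ℝ in 𝓝[>] 0, (1 - t) • mid x y + t • z ∈ (mk3 x y z h).table) := by
  have h1 : ∀ᶠ t : ℝ in 𝓝[>] 0, t < 1 :=
    (eventually_lt_nhds (by norm_num : (0:ℝ) < 1)).filter_mono nhdsWithin_le_nhds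
  filter_upwards [h1, self_mem_nhdsWithin] with t ht1 ht0
  rw [mem_Ioi] at ht0
  rw [Triangle.mem_table_iff]
  intro i
  have h2 := (mk3 x y z h).lam_P
  rw [(mk3 x y z h).lam_comb i (by ring), mid, (mk3 x y z h).lam_comb i (by norm_num)]
  have e0 : (mk3 x y z h).lam i x = if i = 0 then 1 else 0 := h2 i 0
  have e1 : (mk3 x y z h).lam i y = if i = 1 then 1 else 0 := h2 i 1
  have e2 : (mk3 x y z h).lam i z = if i = 2 then 1 else 0 := h2 i 2
  rw [e0, e1, e2]
  have h20 : ¬ ((0 : Fin 3) = 2) := by decide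
  have h21 : ¬ ((1 : Fin 3) = 2) := by decide
  fin_cases i
  · simp [h20]
    exact ht1
  · simp [h21]
    exact ht1
  · simp
    exact ht0

end fl

lemma tendsto_side (x y z : ℂ) :
    Tendsto (fun t : ℝ => (1 - t) • mid x y + t • z) (𝓝[>] 0) (𝓝 (mid x y)) := by
  have h1 : Tendsto (fun t : ℝ => (1 - t) • mid x y + t • z) (𝓝 0)
      (𝓝 ((1 - (0:ℝ)) • mid x y + (0:ℝ) • z)) := Continuous.tendsto (by fun_prop) 0
  rw [sub_zero, one_smul, zero_smul, add_zero] at h1
  exact h1.mono_left nhdsWithin_le_nhds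

lemma mid_mem_openSegment (x y : ℂ) : mid x y ∈ openSegment ℝ x y :=
  ⟨1 / 2, 1 / 2, by norm_num, by norm_num, by norm_num, rfl⟩

lemma mem_of_cr {x y z w : ℂ} (h : cr (y - x) (z - x) ≠ 0)
    (hz : z ∈ ({x, y, w} : Finset ℂ)) : z = w := by
  simp only [Finset.mem_insert, Finset.mem_singleton] at hz
  rcases hz with rfl | rfl | rfl
  · exfalso; apply h; unfold cr; simp
  · exfalso; apply h; unfold cr; ring
  · rfl

/-- at most one triangle at each side of a segment -/
lemma third_unique {Q : Set ℂ} {F : Set (Finset ℂ)} (hF : Trg Q F) {x y v w : ℂ}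
    (hv : ({x, y, v} : Finset ℂ) ∈ F) (hw : ({x, y, w} : Finset ℂ) ∈ F)
    (hvw : 0 < cr (y - x) (v - x) * cr (y - x) (w - x)) : v = w := by
  have hv0 : cr (y - x) (v - x) ≠ 0 := by
    intro h; rw [h, zero_mul] at hvw; exact lt_irrefl _ hvw
  have hw0 : cr (y - x) (w - x) ≠ 0 := by
    intro h; rw [h, mul_zero] at hvw; exact lt_irrefl _ hvw
  have h1 := near_side hw0
  have key : ∀ᶠ t : ℝ in 𝓝[>] 0, (1 - t) • mid x y + t • w ∈ (mk3 x y v hv0).table := by
    have h2 : ∀ i : Fin 3, i ≠ 2 → ∀ᶠ t : ℝ in 𝓝[>] 0,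
        0 < (mk3 x y v hv0).lam i ((1 - t) • mid x y + t • w) := by
      intro i hi
      have h3 : Tendsto (fun t : ℝ => (1 - t) * (1 / 2 : ℝ) + t * (mk3 x y v hv0).lam i w)
          (𝓝 0) (𝓝 ((1 - 0) * (1 / 2 : ℝ) + 0 * (mk3 x y v hv0).lam i w)) :=
        Continuous.tendsto (by fun_prop) 0
      have h4 : (0 : ℝ) < (1 - 0) * (1 / 2 : ℝ) + 0 * (mk3 x y v hv0).lam i w := by norm_num
      filter_upwards [(h3.eventually (lt_mem_nhds h4)).filter_mono nhdsWithin_le_nhds] with t ht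
      rw [(mk3 x y v hv0).lam_comb i (by ring), mid, (mk3 x y v hv0).lam_comb i (by norm_num)]
      have e0 : (mk3 x y v hv0).lam i x = if i = 0 then 1 else 0 := (mk3 x y v hv0).lam_P i 0
      have e1 : (mk3 x y v hv0).lam i y = if i = 1 then 1 else 0 := (mk3 x y v hv0).lam_P i 1
      rw [e0, e1]
      fin_cases i
      · simpa using ht
      · simpa using ht
      · exact absurd rfl hi
    filter_upwards [h2 0 (by decide), h2 1 (by decide), self_mem_nhdsWithin] with t g0 g1 ht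
    rw [mem_Ioi] at ht
    rw [Triangle.mem_table_iff]
    intro i
    fin_cases i
    · exact g0
    · exact g1
    · change 0 < (mk3 x y v hv0).lam 2 ((1 - t) • mid x y + t • w)
      rw [mk3_lam2]
      have h5 : cr (y - x) ((1 - t) • mid x y + t • w - x) = t * cr (y - x) (w - x) := by
        rw [cr_comb _ _ (by ring), mid, cr_comb _ _ (by norm_num)]
        unfold cr
        simp only [Complex.sub_re, Complex.sub_im]
        ring
      rw [h5, mul_div_assoc]
      refine mul_pos ht ?_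
      rw [div_pos_iff]
      rcases lt_or_gt_of_ne hv0 with h6 | h6
      · right
        exact ⟨by nlinarith, h6⟩
      · left
        exact ⟨by nlinarith, h6⟩
  obtain ⟨t, h6, h7⟩ := (h1.and key).exists
  rw [mk3_table] at h6 h7
  have h8 := hF.disj _ hv _ hw ⟨_, h7, h6⟩
  apply mem_of_cr hv0
  rw [← h8]
  simp

end Vale.Agent.P099T
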