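import Vale.Agent.P099.H184.PT.Proj

set_option linter.all false

open MeasureTheory Set Filter Topology

namespace Vale.Agent.P099T

open Vale.Agent.P099

variable {N : ℕ} {T : PolygonalTable N} {S : Type} {X : Cx S}

lemma PolygonalTable.mu_eq (T : PolygonalTable N) :
    T.mu = (volume T.Q)⁻¹ • ((volume.restrict T.Q).prod nu) := by
  rw [mu, ProbabilityTheory.cond, Measure.prod_smul_left]

lemma PolygonalTable.volume_Q_lt_top (T : PolygonalTable N) : volume T.Q < ⊤ :=
  T.isBounded.measure_lt_top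

lemma PolygonalTable.volume_Q_pos (T : PolygonalTable N) : 0 < volume T.Q :=
  T.isOpen.measure_pos volume T.isConnected.nonempty

instance (T : PolygonalTable N) : IsProbabilityMeasure T.mu := by
  have h : IsProbabilityMeasure (ProbabilityTheory.cond (volume : Measure ℂ) T.Q) :=
    ProbabilityTheory.cond_isProbabilityMeasure_of_finite T.volume_Q_pos.ne'
      T.volume_Q_lt_top.ne
  unfold PolygonalTable.mu
  infer_instance

lemma Cut.iUnion_ae [Finite S] (h : Cut T X) :
    (⋃ s, (X.T s).table : Set ℂ) =ᵐ[volume] T.Q := by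
  filter_upwards [h.cover] with x hx
  apply propext
  constructor
  · intro h1
    obtain ⟨s, hs⟩ := mem_iUnion.1 h1
    exact h.sub s hs
  · intro h1
    exact mem_iUnion.2 (hx h1)

variable [MeasurableSpace S] [MeasurableSingletonClass S]

lemma Cut.map_snd [Finite S] (h : Cut T X) :
    ((Cx.mL S).restrict X.phase).map Prod.snd = (volume.restrict T.Q).prod nu := by
  rw [Cx.restrict_phase_eq, Measure.map_sum measurable_snd.aemeasurable]
  have h1 : ∀ s : S, Measure.map Prod.snd
      (((volume.restrict (X.T s).table).prod nu).map (Prod.mk s)) =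
      (volume.restrict (X.T s).table).prod nu := by
    intro s
    rw [Measure.map_map measurable_snd measurable_prodMk_left]
    exact Measure.map_id
  simp only [h1]
  rw [← Measure.prod_sum_left, ← Measure.restrict_iUnion (fun s s' hs => h.disj s s' hs)
    (fun s => (X.T s).isOpen_table.measurableSet), Measure.restrict_congr_set h.iUnion_ae]

lemma Cut.mL_phase [Finite S] (h : Cut T X) : Cx.mL S X.phase = volume T.Q := by
  have h1 := congrArg (fun m : Measure (ℂ × ℂ) => m univ) h.map_snd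
  beta_reduce at h1
  rw [Measure.map_apply measurable_snd MeasurableSet.univ, preimage_univ,
    Measure.restrict_apply_univ, ← univ_prod_univ, Measure.prod_prod,
    Measure.restrict_apply_univ, measure_univ, mul_one] at h1
  exact h1

/-- the projection to the plane preserves the measure -/
lemma Cut.mp_snd [Finite S] (h : Cut T X) : MeasurePreserving Prod.snd X.mu T.mu := by
  refine ⟨measurable_snd, ?_⟩
  rw [Cx.mu_eq, Measure.map_smul, h.map_snd, h.mL_phase, T.mu_eq]

open Classical in
/-- the tile of a point -/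
noncomputable def loc (X : Cx S) [Nonempty S] (x : ℂ) : S :=
  if h : ∃ s, x ∈ (X.T s).table then h.choose else Classical.arbitrary S

omit [MeasurableSpace S] [MeasurableSingletonClass S] in
lemma Cut.loc_eq [Nonempty S] (h : Cut T X) {s : S} {x : ℂ} (hx : x ∈ (X.T s).table) :
    loc X x = s := by
  have h1 : ∃ s, x ∈ (X.T s).table := ⟨s, hx⟩
  rw [loc, dif_pos h1]
  by_contra h2
  exact (h.disj _ _ h2).le_bot ⟨h1.choose_spec, hx⟩

omit [MeasurableSpace S] [MeasurableSingletonClass S] in
lemma measurableSet_tables [Finite S] (X : Cx S) : MeasurableSet (⋃ s, (X.T s).table : Set ℂ) :=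
  MeasurableSet.iUnion fun s => (X.T s).isOpen_table.measurableSet

lemma Cut.measurable_loc [Finite S] [Nonempty S] (h : Cut T X) : Measurable (loc X) := by
  classical
  refine measurable_to_countable' fun s => ?_
  have h1 : loc X ⁻¹' {s} = (X.T s).table ∪
      (if s = Classical.arbitrary S then (⋃ s, (X.T s).table : Set ℂ)ᶜ else ∅) := by
    ext x
    simp only [mem_preimage, mem_singleton_iff, mem_union]
    constructor
    · intro h2
      by_cases h3 : ∃ s, x ∈ (X.T s).table
      · left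
        obtain ⟨s', hs'⟩ := h3
        rw [h.loc_eq hs'] at h2
        rwa [← h2]
      · right
        rw [loc, dif_neg h3] at h2
        rw [if_pos h2.symm]
        intro h4
        exact h3 (mem_iUnion.1 h4)
    · rintro (h2 | h2)
      · exact h.loc_eq h2
      · split_ifs at h2 with h3
        · have h4 : ¬ ∃ s, x ∈ (X.T s).table := fun h5 => h2 (mem_iUnion.2 h5)
          rw [loc, dif_neg h4, h3]
        · exact absurd h2 (notMem_empty x)
  rw [h1]
  refine (X.T s).isOpen_table.measurableSet.union ?_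
  split_ifs
  · exact (measurableSet_tables X).compl
  · exact MeasurableSet.empty

/-- the lift of a planar phase point -/
noncomputable def lift (X : Cx S) [Nonempty S] (q : ℂ × ℂ) : S × ℂ × ℂ := (loc X q.1, q)

lemma Cut.measurable_lift [Finite S] [Nonempty S] (h : Cut T X) : Measurable (lift X) :=
  (h.measurable_loc.comp measurable_fst).prodMk measurable_id

omit [MeasurableSpace S] [MeasurableSingletonClass S] in
lemma Cut.lift_snd [Nonempty S] (h : Cut T X) {p : S × ℂ × ℂ} (hp : p ∈ X.phase) :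
    lift X p.2 = p :=
  Prod.ext (h.loc_eq hp) rfl

lemma Cut.mp_lift [Finite S] [Nonempty S] (h : Cut T X) :
    MeasurePreserving (lift X) T.mu X.mu := by
  refine ⟨h.measurable_lift, ?_⟩
  rw [← h.mp_snd.map_eq, Measure.map_map h.measurable_lift measurable_snd]
  have h1 : (lift X ∘ Prod.snd : S × ℂ × ℂ → S × ℂ × ℂ) =ᵐ[X.mu] id := by
    filter_upwards [Cx.ae_mem_phase (X := X)] with p hp
    exact h.lift_snd hp
  rw [Measure.map_congr h1, Measure.map_id]

/-- The flow of the complex projects to the billiard flow of the table. -/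
theorem Cut.exists_flow [Finite S] [Nonempty S] (h : Cut T X) :
    ∃ (Ψ : ℝ → S × ℂ × ℂ → S × ℂ × ℂ) (Θ : ℝ → ℂ × ℂ → ℂ × ℂ), PFlow X.mu Ψ ∧
      X.IsBilliardFlow Ψ ∧ PFlow T.mu Θ ∧ T.IsBilliardFlow Θ ∧
      (∀ t, ∀ᵐ p ∂X.mu, Θ t p.2 = (Ψ t p).2) ∧
      ∀ Φ : ℝ → ℂ × ℂ → ℂ × ℂ, T.IsBilliardFlow Φ → ∀ t, ∀ᵐ p ∂T.mu, Φ t p = Θ t p := by
  obtain ⟨Ψ, hΨ, hb, -, hg⟩ := Cx.exists_good_flow' X
  set Θ : ℝ → ℂ × ℂ → ℂ × ℂ := fun t q => (Ψ t (lift X q)).2 with hΘ
  have hph : ∀ t, ∀ᵐ p ∂X.mu, Ψ t p ∈ X.phase := fun t =>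
    (hΨ.mp t).quasiMeasurePreserving.ae Cx.ae_mem_phase
  have hg' := h.mp_lift.quasiMeasurePreserving.ae hg
  have hph' : ∀ t, ∀ᵐ q ∂T.mu, Ψ t (lift X q) ∈ X.phase := fun t =>
    h.mp_lift.quasiMeasurePreserving.ae (hph t)
  have hnice : ∀ᵐ q ∂T.mu, T.Nice (fun t => Θ t q) ∧ Θ 0 q = q ∧ (Θ 0 q).1 ∈ T.Q := by
    filter_upwards [hg', h.mp_lift.quasiMeasurePreserving.ae hΨ.zero] with q h1 h2
    have h3 := h.nice h1.1 h1.2.1 h1.2.2.1
    have h4 : (fun t => (X.traj t (lift X q)).2) = fun t => Θ t q := by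
      funext t
      rw [hΘ]
      simp only
      rw [h1.2.2.2 t]
    rw [h4] at h3
    have h5 : Θ 0 q = q := by
      rw [hΘ]
      simp only
      rw [h2]
      rfl
    refine ⟨h3, h5, ?_⟩
    rw [h5]
    exact h.sub _ h1.1
  refine ⟨Ψ, Θ, hΨ, hb, ⟨?_, ?_, ?_, ?_⟩, ?_, ?_, ?_⟩
  · exact (hΨ.meas.comp (measurable_fst.prodMk (h.measurable_lift.comp measurable_snd))).snd
  · exact fun t => h.mp_snd.comp ((hΨ.mp t).comp h.mp_lift)
  · intro s t
    filter_upwards [h.mp_lift.quasiMeasurePreserving.ae (hΨ.add s t), hph' t] with q h1 h2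
    rw [hΘ]
    simp only
    rw [h1, h.lift_snd h2]
  · filter_upwards [hnice] with q hq
    exact hq.2.1
  · filter_upwards [hnice] with q hq
    exact ⟨hq.2.1, hq.1.isTrajectory⟩
  · intro t
    filter_upwards [Cx.ae_mem_phase (X := X)] with p hp
    rw [hΘ]
    simp only
    rw [h.lift_snd hp]
  · intro Φ hΦ t
    filter_upwards [hΦ, hnice, hph' t] with q h1 h2 h3
    exact PolygonalTable.Nice.same T h2.1 h1.2 (a := 0) h2.2.2 (by rw [h1.1, h2.2.1]) (t := t)
      (h.sub _ h3)

end Vale.Agent.P099T
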