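import Vale.Agent.P099.H184.Cx.Inv
import Vale.Agent.P099.H184.PT.Flow

set_option linter.all false

open MeasureTheory Set Filter Topology

namespace Vale.Agent.P099T

open Vale.Agent.P099

variable {N : ℕ} {T : PolygonalTable N} {S : Type} {X : Cx S}
variable [MeasurableSpace S] [MeasurableSingletonClass S] [Finite S] [Nonempty S]

/-- transfer of relative ergodicity from the complex to the table -/
theorem Cut.relative (h : Cut T X) {Ψ : ℝ → S × ℂ × ℂ → S × ℂ × ℂ} {Θ : ℝ → ℂ × ℂ → ℂ × ℂ}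
    (hpr : ∀ t, ∀ᵐ p ∂X.mu, Θ t p.2 = (Ψ t p).2)
    {Φ : ℝ → ℂ × ℂ → ℂ × ℂ} (hΦ : ∀ t, ∀ᵐ p ∂T.mu, Φ t p = Θ t p)
    {Ω : Type} [MeasurableSpace Ω] {m : Measure Ω} [IsProbabilityMeasure m] {Ξ : ℝ → Ω → Ω}
    (hrel : ∀ A : Set ((S × ℂ × ℂ) × Ω), MeasurableSet A →
      (∀ t, (X.mu.prod m) (symmDiff ((fun z => (Ψ t z.1, Ξ t z.2)) ⁻¹' A) A) = 0) →
      ∃ B : Set Ω, MeasurableSet B ∧ (∀ t, m (symmDiff (Ξ t ⁻¹' B) B) = 0) ∧
        (X.mu.prod m) (symmDiff A (univ ×ˢ B)) = 0)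
    {A : Set ((ℂ × ℂ) × Ω)} (hAm : MeasurableSet A)
    (hA : ∀ t, (T.mu.prod m) (symmDiff ((fun z => (Φ t z.1, Ξ t z.2)) ⁻¹' A) A) = 0) :
    ∃ B : Set Ω, MeasurableSet B ∧ (∀ t, m (symmDiff (Ξ t ⁻¹' B) B) = 0) ∧
      (T.mu.prod m) (symmDiff A (univ ×ˢ B)) = 0 := by
  set π : (S × ℂ × ℂ) × Ω → (ℂ × ℂ) × Ω := fun z => (z.1.2, z.2) with hπ
  have hmp : MeasurePreserving π (X.mu.prod m) (T.mu.prod m) :=
    h.mp_snd.prod (MeasurePreserving.id m)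
  have hmp' : MeasurePreserving (fun z : (ℂ × ℂ) × Ω => (lift X z.1, z.2)) (T.mu.prod m)
      (X.mu.prod m) := h.mp_lift.prod (MeasurePreserving.id m)
  obtain ⟨B, hB1, hB2, hB3⟩ := hrel (π ⁻¹' A) (hmp.measurable hAm) (fun t => by
    apply Cx.null_of_ae_iff
    have h1 := hmp.quasiMeasurePreserving.ae (Cx.ae_iff_of_null (hA t))
    have h2 : ∀ᵐ z ∂(X.mu.prod m), Θ t z.1.2 = (Ψ t z.1).2 :=
      Measure.quasiMeasurePreserving_fst.ae (hpr t)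
    have h3 : ∀ᵐ z ∂(X.mu.prod m), Φ t z.1.2 = Θ t z.1.2 :=
      Measure.quasiMeasurePreserving_fst.ae (h.mp_snd.quasiMeasurePreserving.ae (hΦ t))
    filter_upwards [h1, h2, h3] with z g1 g2 g3
    rw [mem_preimage, mem_preimage, mem_preimage, ← g1, mem_preimage]
    simp only [hπ]
    rw [g3, g2])
  refine ⟨B, hB1, hB2, ?_⟩
  apply Cx.null_of_ae_iff
  filter_upwards [hmp'.quasiMeasurePreserving.ae (Cx.ae_iff_of_null hB3)] with z hz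
  simp only [mem_prod, mem_univ, true_and] at hz ⊢
  exact hz

end Vale.Agent.P099T
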