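import Vale.Agent.P099.H184.PT.CutEx4
import Vale.Agent.P099.H172.PTExists
import Vale.Agent.P099.H504.PT.Core
import Vale.Agent.P099.H172.PTRat

set_option linter.all false

open MeasureTheory Set Filter Topology

namespace Vale.Agent.P099T

open Vale.Agent.P099

variable {N : ℕ}

/-- every polygonal table has an adapted triangulation -/
theorem exists_adapted (T : PolygonalTable N) : ∃ F : Set (Finset ℂ), Adapted T F := by
  classical
  obtain ⟨F, hF, hL⟩ := exists_trg T.Q T.isBounded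
    (Finset.univ.image (fun j => (T.a j, T.b j - T.a j)) ∪
      (Finset.univ.image (fun j => (T.a j, Complex.I * (T.b j - T.a j))) ∪
        Finset.univ.image (fun j => (T.b j, Complex.I * (T.b j - T.a j))))) (by
      have hd : ∀ j, T.b j - T.a j ≠ 0 := fun j => sub_ne_zero.2 (T.ne j).symm
      intro l hl
      rcases Finset.mem_union.1 hl with h1 | h1
      · obtain ⟨j, -, rfl⟩ := Finset.mem_image.1 h1
        exact hd j
      rcases Finset.mem_union.1 h1 with h1 | h1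
      · obtain ⟨j, -, rfl⟩ := Finset.mem_image.1 h1
        exact mul_ne_zero Complex.I_ne_zero (hd j)
      · obtain ⟨j, -, rfl⟩ := Finset.mem_image.1 h1
        exact mul_ne_zero Complex.I_ne_zero (hd j))
  refine ⟨F, hF, fun j => ?_, fun j => ?_, fun j => ?_⟩
  · exact hL (T.a j, T.b j - T.a j) (Finset.mem_union_left _
      (Finset.mem_image_of_mem _ (Finset.mem_univ j)))
  · exact hL (T.a j, Complex.I * (T.b j - T.a j)) (Finset.mem_union_right _
      (Finset.mem_union_left _ (Finset.mem_image_of_mem _ (Finset.mem_univ j))))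
  · exact hL (T.b j, Complex.I * (T.b j - T.a j)) (Finset.mem_union_right _
      (Finset.mem_union_right _ (Finset.mem_image_of_mem _ (Finset.mem_univ j))))

lemma Adapted.nonempty {T : PolygonalTable N} {F : Set (Finset ℂ)} (h : Adapted T F) :
    Nonempty (Flag T.Q F) := by
  by_contra hcon
  rw [not_nonempty_iff] at hcon
  have h1 : volume T.Q = 0 := by
    rw [measure_eq_zero_iff_ae_notMem]
    filter_upwards [h.cover_ae] with p hp hpQ
    obtain ⟨s, -⟩ := hp hpQ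
    exact hcon.false s
  exact T.volume_Q_pos.ne' h1

/-- every polygonal table can be cut into triangles -/
theorem exists_cut (T : PolygonalTable N) : ∃ (S : Type) (_ : Finite S) (_ : Nonempty S)
    (X : Cx S), Cut T X := by
  obtain ⟨F, h⟩ := exists_adapted T
  exact ⟨Flag T.Q F, Flag.finite h.trg, h.nonempty, h.cx, h.cut⟩

/-- Existence and uniqueness of the billiard flow, and the classification of the polygonal tables. -/
theorem table_main (T : PolygonalTable N) :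
    (∃ Ψ : ℝ → ℂ × ℂ → ℂ × ℂ, T.IsBilliardFlow Ψ ∧ (∀ t, MeasurePreserving (Ψ t) T.mu T.mu) ∧
      ∀ Φ : ℝ → ℂ × ℂ → ℂ × ℂ, T.IsBilliardFlow Φ → ∀ t, ∀ᵐ p ∂T.mu, Φ t p = Ψ t p) ∧
    ∀ Φ : ℝ → ℂ × ℂ → ℂ × ℂ, T.IsBilliardFlow Φ →
      (FlowErgodic T.mu Φ ↔ T.IsIrrational) ∧ (FlowWeakMixing T.mu Φ ↔ T.IsIrrational) := by
  obtain ⟨S, hS1, hS2, X, h⟩ := exists_cut T
  let _ : MeasurableSpace S := ⊤
  have : MeasurableSingletonClass S := ⟨fun _ => trivial⟩
  obtain ⟨Ψ, Θ, -, -, hΘ, hbΘ, -, huniq⟩ := h.exists_flow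
  have herg : ∀ Φ : ℝ → ℂ × ℂ → ℂ × ℂ, T.IsBilliardFlow Φ → FlowWeakMixing T.mu Φ →
      FlowErgodic T.mu Φ := by
    intro Φ hΦ hwm A hA hinv
    have h1 := hwm (A ×ˢ univ) (hA.prod MeasurableSet.univ) (by
      intro t
      have h2 := (Measure.quasiMeasurePreserving_fst (μ := T.mu) (ν := T.mu)).preimage_null
        (hinv t)
      have h3 : symmDiff ((fun p : (ℂ × ℂ) × (ℂ × ℂ) => (Φ t p.1, Φ t p.2)) ⁻¹' (A ×ˢ univ))
          (A ×ˢ univ) = Prod.fst ⁻¹' (symmDiff (Φ t ⁻¹' A) A) := by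
        ext z
        simp [mem_symmDiff]
      rw [h3]
      exact h2)
    rw [Measure.prod_prod, measure_univ, mul_one] at h1
    exact h1
  refine ⟨⟨Θ, hbΘ, hΘ.mp, huniq⟩, fun Φ hΦ => ⟨⟨fun h1 => ?_, fun hT => h.ergodic hT hΦ⟩,
    ⟨fun h1 => ?_, fun hT => h.weakMixing hT hΦ⟩⟩⟩
  · by_contra hT
    exact T.not_ergodic hT hΦ h1
  · by_contra hT
    exact T.not_ergodic hT hΦ (herg Φ hΦ h1)

/-- The sets invariant under the product of the billiard flow of an irrational polygonal table with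
any measure preserving flow. -/
theorem table_relative (T : PolygonalTable N) (hT : T.IsIrrational)
    (Φ : ℝ → ℂ × ℂ → ℂ × ℂ) (hΦ : T.IsBilliardFlow Φ)
    (Ω : Type) [MeasurableSpace Ω] (m : Measure Ω) [IsProbabilityMeasure m] (Ψ : ℝ → Ω → Ω)
    (h1 : Measurable fun z : ℝ × Ω => Ψ z.1 z.2) (h2 : ∀ t, MeasurePreserving (Ψ t) m m)
    (h3 : ∀ s t, ∀ᵐ q ∂m, Ψ (s + t) q = Ψ s (Ψ t q)) (h4 : ∀ᵐ q ∂m, Ψ 0 q = q)
    (A : Set ((ℂ × ℂ) × Ω)) (hA : MeasurableSet A)
    (hinv : ∀ t, (T.mu.prod m) (symmDiff ((fun z => (Φ t z.1, Ψ t z.2)) ⁻¹' A) A) = 0) :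
    ∃ B : Set Ω, MeasurableSet B ∧ (∀ t, m (symmDiff (Ψ t ⁻¹' B) B) = 0) ∧
      (T.mu.prod m) (symmDiff A (univ ×ˢ B)) = 0 := by
  obtain ⟨S, hS1, hS2, X, h⟩ := exists_cut T
  let _ : MeasurableSpace S := ⊤
  have : MeasurableSingletonClass S := ⟨fun _ => trivial⟩
  exact h.relErg hT hΦ ⟨h1, h2, h3, h4⟩ hA hinv

end Vale.Agent.P099T
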