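import Vale.Agent.P099.H184.PT.Particles
import Vale.Agent.P099.H184.AbsMaps

set_option linter.all false

open MeasureTheory Set Filter Topology

namespace Vale.Agent.P099T

open Vale.Agent.P099

/-- The time maps of the billiard flow of an irrational table. -/
theorem table_maps {N : ℕ} (T : PolygonalTable N) (hT : T.IsIrrational)
    {Φ : ℝ → ℂ × ℂ → ℂ × ℂ} (hΦ : T.IsBilliardFlow Φ) {t : ℝ} (ht : t ≠ 0) :
    (∀ A : Set (ℂ × ℂ), MeasurableSet A → T.mu (symmDiff (Φ t ⁻¹' A) A) = 0 →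
      T.mu A = 0 ∨ T.mu A = 1) ∧
    (∀ A : Set ((ℂ × ℂ) × (ℂ × ℂ)), MeasurableSet A →
      (T.mu.prod T.mu) (symmDiff ((fun z => (Φ t z.1, Φ t z.2)) ⁻¹' A) A) = 0 →
      (T.mu.prod T.mu) A = 0 ∨ (T.mu.prod T.mu) A = 1) ∧
    (∀ A B : Set (ℂ × ℂ), MeasurableSet A → MeasurableSet B →
      Tendsto (fun n : ℕ => (n : ℝ)⁻¹ * ∑ k ∈ Finset.range n,
        |T.mu.real (Φ (k * t) ⁻¹' A ∩ B) - T.mu.real A * T.mu.real B|) atTop (𝓝 0)) ∧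
    ∀ᵐ p ∂T.mu, ∀ U : Set (ℂ × ℂ), IsOpen U → T.mu U ≠ 0 → ∃ n : ℕ, Φ (n * t) p ∈ U := by
  obtain ⟨Θ, hΘ, hb, hu⟩ := exists_good_table_flow T
  have hrel : H184Abs.RelErgodic T.mu Θ := by
    intro Ω _ m _ Ψ hΨ A hA hinv
    obtain ⟨B, hB, -, h2⟩ := table_relative T hT Θ hb Ω m Ψ hΨ.meas hΨ.mp hΨ.add hΨ.zero A hA hinv
    exact ⟨B, hB, h2⟩
  have hF : H184Abs.Flow T.mu Θ := ⟨hΘ.meas, hΘ.mp, hΘ.add, hΘ.zero⟩
  have hae := hu Φ hΦ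
  refine ⟨fun A hA h => ?_, fun A hA h => ?_, fun A B hA hB => ?_, ?_⟩
  · exact H184Abs.map_zero_one hrel hF hae ht ⟨hA, h⟩
  · exact H184Abs.pair_zero_one hrel hF hae ht ⟨hA, h⟩
  · exact H184Abs.mean_mixing hrel hF hae ht hA hB
  · exact H184Abs.visits hrel hF hae ht

end Vale.Agent.P099T
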