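import Vale.Agent.P099.H184.PT.Main
import Vale.Agent.P099.H819.Particles

set_option linter.all false

open MeasureTheory Set Filter Topology

namespace Vale.Agent.P099T

open Vale.Agent.P099

/-- product with an ergodic flow -/
theorem table_prod_ergodic {N : ℕ} (T : PolygonalTable N) (hT : T.IsIrrational)
    {Φ : ℝ → ℂ × ℂ → ℂ × ℂ} (hΦ : T.IsBilliardFlow Φ) {Ω : Type} [MeasurableSpace Ω]
    {m : Measure Ω} [IsProbabilityMeasure m] {Ψ : ℝ → Ω → Ω} (hΨ : PFlow m Ψ)
    (hE : FlowErgodic m Ψ) :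
    FlowErgodic (T.mu.prod m) (fun t z => (Φ t z.1, Ψ t z.2)) := by
  intro A hA hinv
  obtain ⟨B, hB, h1, h2⟩ := table_relative T hT Φ hΦ Ω m Ψ hΨ.meas hΨ.mp hΨ.add hΨ.zero A hA hinv
  have h6 : (T.mu.prod m) A = (T.mu.prod m) (univ ×ˢ B) := by
    apply measure_congr
    have := Cx.ae_iff_of_null h2
    filter_upwards [this] with z hz
    exact propext hz
  rw [h6, Measure.prod_prod, measure_univ, one_mul]
  exact hE B hB h1

/-- the good version of the flow -/
theorem exists_good_table_flow {N : ℕ} (T : PolygonalTable N) :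
    ∃ Ψ : ℝ → ℂ × ℂ → ℂ × ℂ, PFlow T.mu Ψ ∧ T.IsBilliardFlow Ψ ∧
      ∀ Φ : ℝ → ℂ × ℂ → ℂ × ℂ, T.IsBilliardFlow Φ → ∀ t, ∀ᵐ p ∂T.mu, Φ t p = Ψ t p := by
  obtain ⟨S, hS1, hS2, X, h⟩ := exists_cut T
  let _ : MeasurableSpace S := ⊤
  have : MeasurableSingletonClass S := ⟨fun _ => trivial⟩
  obtain ⟨Ψ, Θ, -, -, hΘ, hbΘ, -, huniq⟩ := h.exists_flow
  exact ⟨Θ, hΘ, hbΘ, huniq⟩

/-- The joint flow of finitely many particles in irrational tables, times an ergodic flow. -/
theorem table_particles_aux : ∀ (n : ℕ) (N : Fin n → ℕ) (T : ∀ i, PolygonalTable (N i)),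
    (∀ i, (T i).IsIrrational) →
    ∀ (Θ : Fin n → ℝ → ℂ × ℂ → ℂ × ℂ), (∀ i, PFlow (T i).mu (Θ i)) →
    (∀ i, (T i).IsBilliardFlow (Θ i)) → ∀ c : Fin n → ℝ, (∀ i, c i ≠ 0) →
    ∀ (Ω : Type) [MeasurableSpace Ω] (m : Measure Ω) [IsProbabilityMeasure m] (Ψ : ℝ → Ω → Ω),
      PFlow m Ψ → FlowErgodic m Ψ →
      FlowErgodic ((Measure.pi fun i => (T i).mu).prod m)
        (fun t z => (fun i => Θ i (c i * t) (z.1 i), Ψ t z.2))
  | 0 => by
    intro N T hT Θ hΘ hb c hc Ω _ m _ Ψ hΨ hE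
    intro A hA hinv
    set p0 : Fin 0 → ℂ × ℂ := fun i => i.elim0 with hp0
    have hall : ∀ p : Fin 0 → ℂ × ℂ, p = p0 := fun p => funext fun i => i.elim0
    set B : Set Ω := {q | (p0, q) ∈ A} with hB
    have hBm : MeasurableSet B := measurable_prodMk_left hA
    have hAB : ∀ z : (Fin 0 → ℂ × ℂ) × Ω, z ∈ A ↔ z.2 ∈ B := by
      rintro ⟨p, q⟩
      rw [hall p]
      rfl
    have hAeq : A = Prod.snd ⁻¹' B := by
      ext z; exact hAB z
    have hsnd := measurePreserving_snd (μ := Measure.pi fun i => (T i).mu) (ν := m)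
    have h2 : ((Measure.pi fun i => (T i).mu).prod m) A = m B := by
      rw [hAeq]
      exact hsnd.measure_preimage hBm.nullMeasurableSet
    rw [h2]
    refine hE B hBm fun t => ?_
    have h3 := hinv t
    have h4 : symmDiff ((fun z : (Fin 0 → ℂ × ℂ) × Ω =>
        ((fun i => Θ i (c i * t) (z.1 i) : Fin 0 → ℂ × ℂ), Ψ t z.2)) ⁻¹' A) A =
        Prod.snd ⁻¹' (symmDiff (Ψ t ⁻¹' B) B) := by
      ext z
      simp only [mem_preimage, mem_symmDiff, hAB]
    rw [h4, hsnd.measure_preimage] at h3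
    · exact h3
    · exact (((hΨ.mp t).measurable hBm).symmDiff hBm).nullMeasurableSet
  | n + 1 => by
    intro N T hT Θ hΘ hb c hc Ω _ m _ Ψ hΨ hE
    -- the remaining particles and the second flow
    have ih := table_particles_aux n (fun i => N i.succ) (fun i => T i.succ)
      (fun i => hT i.succ) (fun i => Θ i.succ)
      (fun i => hΘ i.succ) (fun i => hb i.succ) (fun i => c i.succ) (fun i => hc i.succ)
      Ω m Ψ hΨ hE
    have hP : PFlow (Measure.pi fun i : Fin n => (T i.succ).mu)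
        (fun t p i => Θ i.succ (c i.succ * t) (p i)) :=
      PFlow.pi (fun i : Fin n => hΘ i.succ) (fun i => c i.succ)
    have hPΨ := hP.prod hΨ
    have h0 := table_prod_ergodic (T 0) (hT 0) (hb 0) (hPΨ.speed (c 0)⁻¹)
      (ih.speed (inv_ne_zero (hc 0)))
    have h1 := h0.speed (hc 0)
    -- the isomorphism
    set e1 := MeasurableEquiv.piFinSuccAbove (fun _ : Fin (n + 1) => ℂ × ℂ) 0 with he1
    have he1m : MeasurePreserving e1 (Measure.pi fun i => (T i).mu)
        ((T 0).mu.prod (Measure.pi fun i : Fin n => (T i.succ).mu)) :=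
      measurePreserving_piFinSuccAbove (fun i => (T i).mu) 0
    set e2 : (Fin (n + 1) → ℂ × ℂ) × Ω ≃ᵐ ((ℂ × ℂ) × (Fin n → ℂ × ℂ)) × Ω :=
      MeasurableEquiv.prodCongr e1 (MeasurableEquiv.refl Ω) with he2
    have he2m : MeasurePreserving e2 ((Measure.pi fun i => (T i).mu).prod m)
        (((T 0).mu.prod (Measure.pi fun i : Fin n => (T i.succ).mu)).prod m) :=
      he1m.prod (MeasurePreserving.id m)
    set e3 : ((ℂ × ℂ) × (Fin n → ℂ × ℂ)) × Ω ≃ᵐ (ℂ × ℂ) × ((Fin n → ℂ × ℂ) × Ω) :=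
      MeasurableEquiv.prodAssoc with he3
    have he3m : MeasurePreserving e3
        (((T 0).mu.prod (Measure.pi fun i : Fin n => (T i.succ).mu)).prod m)
        ((T 0).mu.prod ((Measure.pi fun i : Fin n => (T i.succ).mu).prod m)) :=
      measurePreserving_prodAssoc _ _ _
    refine FlowErgodic.of_equiv (e2.trans e3) (he3m.comp he2m) ?_ h1
    intro t z
    obtain ⟨p, q⟩ := z
    have hc0 : (c 0)⁻¹ * (c 0 * t) = t := by
      rw [← mul_assoc, inv_mul_cancel₀ (hc 0), one_mul]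
    show ((Θ 0 (c 0 * t) (p 0)), ((fun i : Fin n => Θ i.succ (c i.succ * t) (p i.succ)), Ψ t q)) =
      (Θ 0 (c 0 * t) (p 0), ((fun i : Fin n => Θ i.succ (c i.succ * ((c 0)⁻¹ * (c 0 * t))) (p i.succ)),
        Ψ ((c 0)⁻¹ * (c 0 * t)) q))
    rw [hc0]

/-- Finitely many particles with arbitrary nonzero speeds in polygonal tables. -/
theorem table_particles (n : ℕ) (N : Fin n → ℕ) (T : ∀ i, PolygonalTable (N i))
    (Φ : Fin n → ℝ → ℂ × ℂ → ℂ × ℂ)
    (hΦ : ∀ i, (T i).IsBilliardFlow (Φ i)) (c : Fin n → ℝ) (hc : ∀ i, c i ≠ 0) :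
    (FlowErgodic (Measure.pi fun i => (T i).mu) (fun t p i => Φ i (c i * t) (p i)) ↔
      ∀ i, (T i).IsIrrational) ∧
    (FlowWeakMixing (Measure.pi fun i => (T i).mu) (fun t p i => Φ i (c i * t) (p i)) ↔
      ∀ i, (T i).IsIrrational) := by
  choose Θ hΘ hb hu using fun i => exists_good_table_flow (T i)
  have hae : ∀ t, (fun (p : Fin n → ℂ × ℂ) i => Θ i (c i * t) (p i)) =ᵐ[Measure.pi fun i => (T i).mu]
      (fun p i => Φ i (c i * t) (p i)) := by
    intro t
    have h1 : ∀ i, ∀ᵐ p ∂(Measure.pi fun i => (T i).mu), Φ i (c i * t) (p i) =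
        Θ i (c i * t) (p i) := fun i =>
      (measurePreserving_eval (fun i => (T i).mu) i).quasiMeasurePreserving.ae
        (hu i (Φ i) (hΦ i) (c i * t))
    filter_upwards [ae_all_iff.2 h1] with p hp
    funext i
    exact (hp i).symm
  have hP : PFlow (Measure.pi fun i => (T i).mu) (fun t p i => Θ i (c i * t) (p i)) :=
    PFlow.pi hΘ c
  have back : FlowErgodic (Measure.pi fun i => (T i).mu) (fun t p i => Φ i (c i * t) (p i)) →
      ∀ i, (T i).IsIrrational := by
    intro h i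
    have h1 := FlowErgodic.eval (Θ := fun i t => Φ i (c i * t)) h i
    have h2 := h1.speed (inv_ne_zero (hc i))
    have h3 : (fun t => (fun t => Φ i (c i * t)) ((c i)⁻¹ * t)) = Φ i := by
      funext t
      show Φ i (c i * ((c i)⁻¹ * t)) = Φ i t
      rw [← mul_assoc, mul_inv_cancel₀ (hc i), one_mul]
    rw [h3] at h2
    exact ((table_main (T i)).2 (Φ i) (hΦ i)).1.1 h2
  have hunit : FlowErgodic (Measure.dirac ()) (fun (_ : ℝ) (q : Unit) => q) := by
    intro B hB _
    by_cases hb : () ∈ B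
    · right; simp [Measure.dirac_apply' _ hB, hb]
    · left; simp [Measure.dirac_apply' _ hB, hb]
  have hE : (∀ i, (T i).IsIrrational) →
      FlowErgodic (Measure.pi fun i => (T i).mu) (fun t p i => Θ i (c i * t) (p i)) := by
    intro hT
    exact FlowErgodic.fst (ν := Measure.dirac ()) (Ψ := fun (_ : ℝ) (q : Unit) => q)
      (table_particles_aux n N T hT Θ hΘ hb c hc Unit (Measure.dirac ()) (fun _ q => q)
        Triangle.pflow_unit hunit)
  refine ⟨⟨back, fun hT => (hE hT).congr hae⟩, ⟨fun h => back (FlowErgodic.fst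
    (ν := Measure.pi fun i => (T i).mu) (Ψ := fun t p i => Φ i (c i * t) (p i)) h), fun hT => ?_⟩⟩
  have h1 := table_particles_aux n N T hT Θ hΘ hb c hc (Fin n → ℂ × ℂ)
    (Measure.pi fun i => (T i).mu) (fun t p i => Θ i (c i * t) (p i)) hP (hE hT)
  refine FlowErgodic.congr h1 fun t => ?_
  have h2 := Measure.quasiMeasurePreserving_fst (μ := Measure.pi fun i => (T i).mu)
    (ν := Measure.pi fun i => (T i).mu) |>.ae (hae t)
  have h3 := Measure.quasiMeasurePreserving_snd (μ := Measure.pi fun i => (T i).mu)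
    (ν := Measure.pi fun i => (T i).mu) |>.ae (hae t)
  filter_upwards [h2, h3] with z g1 g2
  exact Prod.ext g1 g2

end Vale.Agent.P099T
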