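import Vale.Agent.P099.H184.Cx.GoodFlow
import Vale.Agent.P099.H184.PT.Cut

set_option linter.all false

open MeasureTheory Set Filter Topology

namespace Vale.Agent.P099

namespace Cx

variable {S : Type} {X : Cx S}

lemma Good.fw_vel [Finite S] {p : S × ℂ × ℂ} (h : X.Good p) {t : ℝ} (ht : 0 ≤ t) :
    ∀ᶠ r in 𝓝[>] t, (X.fw p r).2.2 = (X.fw p t).2.2 := by
  obtain ⟨n, h1, h2⟩ := h.exists_Ico ht
  filter_upwards [Ioo_mem_nhdsGT h2] with r hr
  rw [h.fw_eq (h1.trans hr.1.le) hr.2, h.fw_eq h1 h2]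

/-- the velocity at a time is the velocity just before or just after -/
lemma traj_vel [Finite S] {p : S × ℂ × ℂ} (h1 : X.Good p) (h2 : X.Good (flip p)) (t : ℝ) :
    (∀ᶠ r in 𝓝[>] t, (X.traj r p).2.2 = (X.traj t p).2.2) ∨
      (∀ᶠ r in 𝓝[<] t, (X.traj r p).2.2 = (X.traj t p).2.2) := by
  rcases le_or_gt 0 t with ht | ht
  · left
    filter_upwards [h1.fw_vel ht, self_mem_nhdsWithin] with r hr hr'
    rw [mem_Ioi] at hr'
    rw [traj, traj, if_pos (by linarith), if_pos ht, hr]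
  · right
    have h4 : Tendsto (fun r : ℝ => -r) (𝓝[<] t) (𝓝[>] (-t)) := tendsto_neg_nhdsLT
    filter_upwards [h4.eventually (h2.fw_vel (t := -t) (by linarith)), self_mem_nhdsWithin]
      with r hr hr'
    rw [mem_Iio] at hr'
    rw [traj, traj, if_neg (by linarith), if_neg (by linarith)]
    change -(X.fw (flip p) (-r)).2.2 = -(X.fw (flip p) (-t)).2.2
    rw [hr]

end Cx

end Vale.Agent.P099

namespace Vale.Agent.P099T

open Vale.Agent.P099

/-- comparison of curves, the topological part -/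
lemma same_of_cmp {α : Type*} {γ δ : ℝ → α} {P : ℝ → Prop}
    (h : ∀ t, ((∀ᶠ s in 𝓝[>] t, γ s = δ s) ∧ (∀ᶠ s in 𝓝[<] t, γ s = δ s) ∧ (P t → γ t = δ t)) ∨
      ((∀ᶠ s in 𝓝[>] t, γ s ≠ δ s) ∧ (∀ᶠ s in 𝓝[<] t, γ s ≠ δ s)))
    {a : ℝ} (ha : ∀ᶠ s in 𝓝[>] a, γ s = δ s) {t : ℝ} (ht : P t) : γ t = δ t := by
  set A : Set ℝ := {t | ∀ᶠ s in 𝓝[>] t, γ s = δ s} with hA
  have key1 : ∀ t ∈ A, (∀ᶠ s in 𝓝[<] t, γ s = δ s) ∧ (P t → γ t = δ t) := by
    intro t ht
    rcases h t with h | h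
    · exact h.2
    · exfalso
      obtain ⟨s, h1, h2⟩ := (h.1.and ht).exists
      exact h1 h2
  have key2 : ∀ t ∉ A, (∀ᶠ s in 𝓝[>] t, γ s ≠ δ s) ∧ (∀ᶠ s in 𝓝[<] t, γ s ≠ δ s) := by
    intro t ht
    rcases h t with h | h
    · exact absurd h.1 ht
    · exact h
  have hclopen : IsClopen A := by
    constructor
    · rw [← isOpen_compl_iff, isOpen_iff_mem_nhds]
      intro t ht
      obtain ⟨h1, h2⟩ := key2 t ht
      obtain ⟨b, hb, hb'⟩ := mem_nhdsGT_iff_exists_Ioo_subset.1 h1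
      obtain ⟨c, hc, hc'⟩ := mem_nhdsLT_iff_exists_Ioo_subset.1 h2
      rw [mem_Ioi] at hb
      rw [mem_Iio] at hc
      filter_upwards [Ioo_mem_nhds hc hb] with s hs
      rcases lt_trichotomy s t with h | h | h
      · intro hsA
        have h3 : ∀ᶠ r in 𝓝[>] s, r ∈ Ioo c t := nhdsWithin_le_nhds (Ioo_mem_nhds hs.1 h)
        obtain ⟨r, h4, h5⟩ := (Eventually.and (show ∀ᶠ r in 𝓝[>] s, γ r = δ r from hsA) h3).exists
        exact hc' h5 h4
      · rw [h]; exact ht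
      · intro hsA
        have h3 : ∀ᶠ r in 𝓝[>] s, r ∈ Ioo t b := nhdsWithin_le_nhds (Ioo_mem_nhds h hs.2)
        obtain ⟨r, h4, h5⟩ := (Eventually.and (show ∀ᶠ r in 𝓝[>] s, γ r = δ r from hsA) h3).exists
        exact hb' h5 h4
    · rw [isOpen_iff_mem_nhds]
      intro t ht
      obtain ⟨h2, -⟩ := key1 t ht
      obtain ⟨b, hb, hb'⟩ := mem_nhdsGT_iff_exists_Ioo_subset.1 ht
      obtain ⟨c, hc, hc'⟩ := mem_nhdsLT_iff_exists_Ioo_subset.1 h2
      rw [mem_Ioi] at hb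
      rw [mem_Iio] at hc
      filter_upwards [Ioo_mem_nhds hc hb] with s hs
      rcases lt_trichotomy s t with h | h | h
      · show ∀ᶠ r in 𝓝[>] s, γ r = δ r
        have h3 : ∀ᶠ r in 𝓝[>] s, r ∈ Ioo c t := nhdsWithin_le_nhds (Ioo_mem_nhds hs.1 h)
        filter_upwards [h3] with r hr
        exact hc' hr
      · rw [h]; exact ht
      · show ∀ᶠ r in 𝓝[>] s, γ r = δ r
        have h3 : ∀ᶠ r in 𝓝[>] s, r ∈ Ioo t b := nhdsWithin_le_nhds (Ioo_mem_nhds h hs.2)
        filter_upwards [h3] with r hr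
        exact hb' hr
  have huniv : A = univ := IsClopen.eq_univ hclopen ⟨a, ha⟩
  exact (key1 t (huniv ▸ mem_univ t)).2 ht

namespace PolygonalTable

variable {N : ℕ} (T : PolygonalTable N)

lemma not_mem_side {x : ℂ} (h : x ∈ T.Q) (j : Fin N) : x ∉ T.side j := by
  intro h1
  have h2 : x ∈ frontier T.Q := by
    rw [T.frontier_eq]
    exact mem_iUnion.2 ⟨j, openSegment_subset_segment ℝ _ _ h1⟩
  rw [T.isOpen.frontier_eq] at h2
  exact h2.2 h

lemma refl_refl (j : Fin N) (u : ℂ) : T.refl j (T.refl j u) = u :=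
  Submodule.reflection_reflection _ _

/-- curves along which the reflection law is not ambiguous -/
def Nice (δ : ℝ → ℂ × ℂ) : Prop :=
  ∀ t, ((δ t).1 ∈ T.Q ∧ ∀ᶠ s in 𝓝 t, δ s = ((δ t).1 + (s - t) • (δ t).2, (δ t).2)) ∨
    ((δ t).1 ∉ T.Q ∧ ∃ v v', (∃ j, (δ t).1 ∈ T.side j) ∧
      (∀ j, (δ t).1 ∈ T.side j → T.refl j v = v') ∧
      (∀ᶠ s in 𝓝[<] t, δ s = ((δ t).1 + (s - t) • v, v)) ∧
      (∀ᶠ s in 𝓝[>] t, δ s = ((δ t).1 + (s - t) • v', v')))

lemma Nice.isTrajectory {δ : ℝ → ℂ × ℂ} (h : T.Nice δ) : T.IsTrajectory δ := by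
  intro t
  rcases h t with h1 | ⟨-, v, v', ⟨j, hj⟩, h2, h3, h4⟩
  · exact Or.inl h1
  · refine Or.inr ⟨j, v, hj, h3, ?_⟩
    rw [h2 j hj]
    exact h4

lemma ray_eq {x y u v : ℂ} {r : ℝ} (h : (x + r • u, u) = (y + r • v, v)) :
    x = y ∧ u = v := by
  rw [Prod.mk.injEq] at h
  obtain ⟨h1, h2⟩ := h
  subst h2
  exact ⟨add_right_cancel h1, rfl⟩

lemma cmp {γ δ : ℝ → ℂ × ℂ} (hγ : T.IsTrajectory γ) (hδ : T.Nice δ) (t : ℝ) :
    ((∀ᶠ s in 𝓝[>] t, γ s = δ s) ∧ (∀ᶠ s in 𝓝[<] t, γ s = δ s) ∧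
      ((δ t).1 ∈ T.Q → γ t = δ t)) ∨
    ((∀ᶠ s in 𝓝[>] t, γ s ≠ δ s) ∧ (∀ᶠ s in 𝓝[<] t, γ s ≠ δ s)) := by
  rcases hγ t with ⟨hT, hE⟩ | ⟨i, u, hS, hL, hR⟩
  · rcases hδ t with ⟨hT', hE'⟩ | ⟨hT', v, v', -, -, hL', hR'⟩
    · by_cases hc : (γ t).1 = (δ t).1 ∧ (γ t).2 = (δ t).2
      · left
        have h : ∀ᶠ s in 𝓝 t, γ s = δ s := by
          filter_upwards [hE, hE'] with s h1 h2
          rw [h1, h2, hc.1, hc.2]
        exact ⟨h.filter_mono nhdsWithin_le_nhds, h.filter_mono nhdsWithin_le_nhds,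
          fun _ => Prod.ext hc.1 hc.2⟩
      · right
        have h : ∀ᶠ s in 𝓝 t, γ s ≠ δ s := by
          filter_upwards [hE, hE'] with s h1 h2 h3
          rw [h1, h2] at h3
          exact hc (ray_eq h3)
        exact ⟨h.filter_mono nhdsWithin_le_nhds, h.filter_mono nhdsWithin_le_nhds⟩
    · right
      constructor
      · filter_upwards [hE.filter_mono nhdsWithin_le_nhds, hR'] with s h1 h2 h3
        rw [h1, h2] at h3
        exact hT' ((ray_eq h3).1 ▸ hT)
      · filter_upwards [hE.filter_mono nhdsWithin_le_nhds, hL'] with s h1 h2 h3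
        rw [h1, h2] at h3
        exact hT' ((ray_eq h3).1 ▸ hT)
  · rcases hδ t with ⟨hT', hE'⟩ | ⟨hT', v, v', -, hr, hL', hR'⟩
    · right
      constructor
      · filter_upwards [hR, hE'.filter_mono nhdsWithin_le_nhds] with s h1 h2 h3
        rw [h1, h2] at h3
        exact T.not_mem_side hT' i ((ray_eq h3).1 ▸ hS)
      · filter_upwards [hL, hE'.filter_mono nhdsWithin_le_nhds] with s h1 h2 h3
        rw [h1, h2] at h3
        exact T.not_mem_side hT' i ((ray_eq h3).1 ▸ hS)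
    · by_cases hc : (γ t).1 = (δ t).1 ∧ u = v
      · left
        obtain ⟨hc1, rfl⟩ := hc
        have hr' : T.refl i u = v' := hr i (hc1 ▸ hS)
        refine ⟨?_, ?_, fun h => absurd h hT'⟩
        · filter_upwards [hR, hR'] with s h1 h2
          rw [h1, h2, hc1, hr']
        · filter_upwards [hL, hL'] with s h1 h2
          rw [h1, h2, hc1]
      · right
        constructor
        · filter_upwards [hR, hR'] with s h1 h2 h3
          rw [h1, h2] at h3
          obtain ⟨h5, h6⟩ := ray_eq h3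
          have hr' : T.refl i v = v' := hr i (h5 ▸ hS)
          apply hc
          refine ⟨h5, ?_⟩
          rw [← T.refl_refl i u, h6, ← hr', T.refl_refl]
        · filter_upwards [hL, hL'] with s h1 h2 h3
          rw [h1, h2] at h3
          exact hc (ray_eq h3)

/-- a trajectory which starts as a nice curve agrees with it -/
lemma Nice.same {γ δ : ℝ → ℂ × ℂ} (hδ : T.Nice δ) (hγ : T.IsTrajectory γ) {a : ℝ}
    (ha : (δ a).1 ∈ T.Q) (hae : γ a = δ a) {t : ℝ} (ht : (δ t).1 ∈ T.Q) : γ t = δ t := by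
  refine same_of_cmp (P := fun t => (δ t).1 ∈ T.Q) (T.cmp hγ hδ) (a := a) ?_ ht
  rcases hγ a with ⟨hT, hE⟩ | ⟨i, u, hS, hL, hR⟩
  · rcases hδ a with ⟨hT', hE'⟩ | ⟨hT', -⟩
    · filter_upwards [hE.filter_mono nhdsWithin_le_nhds, hE'.filter_mono nhdsWithin_le_nhds]
        with s h1 h2
      rw [h1, h2, hae]
    · exact absurd ha hT'
  · rw [hae] at hS
    exact absurd hS (T.not_mem_side ha i)

end PolygonalTable

/-- the projection of a trajectory of the complex -/
lemma Cut.nice {N : ℕ} {T : PolygonalTable N} {S : Type} [Finite S] {X : Cx S} (h : Cut T X)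
    {p : S × ℂ × ℂ} (hp : p ∈ X.phase) (h1 : X.Good p) (h2 : X.Good (Cx.flip p)) :
    T.Nice (fun t => (X.traj t p).2) := by
  intro t
  have hv := Cx.traj_vel h1 h2 t
  rcases Cx.isTrajectory_traj hp h1 h2 t with ⟨h3, h4⟩ | ⟨s, i, u, hs, h3, h4, h5⟩
  · left
    refine ⟨h.sub _ h3, ?_⟩
    filter_upwards [h4] with r hr
    exact congrArg Prod.snd hr
  · by_cases hσ : X.σ s i = s
    · right
      obtain ⟨j, hj⟩ := h.wall s i hσ
      refine ⟨fun h6 => T.not_mem_side h6 j (hj h3), u, X.D s i u, ⟨j, hj h3⟩, ?_, ?_, ?_⟩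
      · intro k hk
        rw [X.D_wall hσ]
        exact h.refl_eq s i hσ _ h3 k hk u
      · filter_upwards [h4] with r hr
        exact congrArg Prod.snd hr
      · filter_upwards [h5] with r hr
        exact congrArg Prod.snd hr
    · left
      refine ⟨h.glued s i hσ h3, ?_⟩
      have hu : (X.traj t p).2.2 = u := by
        rcases hv with hv | hv
        · obtain ⟨r, h6, h7⟩ := (hv.and h5).exists
          rw [← h6]
          have h8 := congrArg (fun z : S × ℂ × ℂ => z.2.2) h7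
          simp only [X.D_glue hσ] at h8
          exact h8
        · obtain ⟨r, h6, h7⟩ := (hv.and h4).exists
          rw [← h6]
          exact congrArg (fun z : S × ℂ × ℂ => z.2.2) h7
      have h6 : ∀ᶠ r in 𝓝[≠] t, (X.traj r p).2 =
          ((X.traj t p).2.1 + (r - t) • u, u) := by
        rw [← Iio_union_Ioi, nhdsWithin_union, eventually_sup]
        constructor
        · filter_upwards [h4] with r hr
          exact congrArg Prod.snd hr
        · filter_upwards [h5] with r hr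
          have h8 := congrArg Prod.snd hr
          simp only [X.D_glue hσ] at h8
          exact h8
      rw [eventually_nhdsWithin_iff] at h6
      filter_upwards [h6] with r hr
      by_cases hrt : r = t
      · subst hrt
        simp
      · rw [hr hrt, hu]

end Vale.Agent.P099T
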