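import Vale.Agent.P099.H184.PT.Cut

set_option linter.all false

open MeasureTheory Set Filter Topology

namespace Vale.Agent.P099T

open Vale.Agent.P099

/-! ### triangles from their vertices -/

lemma indep_of_cr {x y z : ℂ} (h : cr (y - x) (z - x) ≠ 0) :
    AffineIndependent ℝ ![x, y, z] := by
  rw [affineIndependent_iff_not_collinear]
  intro hc
  rw [collinear_iff_exists_forall_eq_smul_vadd] at hc
  obtain ⟨p, v, hv⟩ := hc
  obtain ⟨a, ha⟩ := hv x ⟨0, rfl⟩
  obtain ⟨b, hb⟩ := hv y ⟨1, rfl⟩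
  obtain ⟨c, hc⟩ := hv z ⟨2, rfl⟩
  apply h
  rw [ha, hb, hc]
  unfold cr
  simp only [vadd_eq_add, Complex.sub_re, Complex.add_re, Complex.real_smul,
    Complex.re_ofReal_mul, Complex.sub_im, Complex.add_im, Complex.im_ofReal_mul]
  ring

/-- the triangle with given vertices -/
noncomputable def mk3 (x y z : ℂ) (h : cr (y - x) (z - x) ≠ 0) : Triangle where
  P := ![x, y, z]
  indep := indep_of_cr h

section mk3

variable {x y z : ℂ} (h : cr (y - x) (z - x) ≠ 0)

lemma mk3_P0 : (mk3 x y z h).P 0 = x := rfl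
lemma mk3_P1 : (mk3 x y z h).P 1 = y := rfl
lemma mk3_P2 : (mk3 x y z h).P 2 = z := rfl

lemma mk3_Del : (mk3 x y z h).Del = cr (y - x) (z - x) := rfl
lemma mk3_lam0 (p : ℂ) : (mk3 x y z h).lam 0 p = cr (z - y) (p - y) / cr (y - x) (z - x) := rfl
lemma mk3_lam1 (p : ℂ) : (mk3 x y z h).lam 1 p = cr (x - z) (p - z) / cr (y - x) (z - x) := rfl
lemma mk3_lam2 (p : ℂ) : (mk3 x y z h).lam 2 p = cr (y - x) (p - x) / cr (y - x) (z - x) := rfl

lemma mk3_table : (mk3 x y z h).table =
    interior (convexHull ℝ ((({x, y, z} : Finset ℂ)) : Set ℂ)) := by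
  have h1 : range (mk3 x y z h).P = ((({x, y, z} : Finset ℂ)) : Set ℂ) := by
    change range ![x, y, z] = _
    ext p
    simp only [mem_range, Finset.coe_insert, Finset.coe_singleton, mem_insert_iff,
      mem_singleton_iff]
    constructor
    · rintro ⟨i, hi⟩
      fin_cases i
      · exact Or.inl hi.symm
      · exact Or.inr (Or.inl hi.symm)
      · exact Or.inr (Or.inr hi.symm)
    · rintro (h1 | h1 | h1)
      · exact ⟨0, h1.symm⟩
      · exact ⟨1, h1.symm⟩
      · exact ⟨2, h1.symm⟩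
  rw [Triangle.table, h1]

end mk3

/-- the cross product is affine -/
lemma cr_comb (d c : ℂ) {a b : ℝ} (hab : a + b = 1) (x y : ℂ) :
    cr d (a • x + b • y - c) = a * cr d (x - c) + b * cr d (y - c) := by
  have hb : b = 1 - a := by linarith
  subst hb
  unfold cr
  simp only [Complex.sub_re, Complex.add_re, Complex.real_smul, Complex.re_ofReal_mul,
    Complex.sub_im, Complex.add_im, Complex.im_ofReal_mul]
  ring

lemma convex_half (d c : ℂ) : Convex ℝ {q : ℂ | 0 ≤ cr d (q - c)} := by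
  intro x hx y hy a b ha hb hab
  simp only [mem_ofPred_eq] at hx hy ⊢
  rw [cr_comb d c hab]
  exact add_nonneg (mul_nonneg ha hx) (mul_nonneg hb hy)

lemma cr_neg_left (a b : ℂ) : cr (-a) b = - cr a b := by
  unfold cr
  simp only [Complex.neg_re, Complex.neg_im]
  ring

lemma nonneg_of_hull {τ : Set ℂ} {c d : ℂ} (h : ∀ v ∈ τ, 0 ≤ cr d (v - c)) {p : ℂ}
    (hp : p ∈ convexHull ℝ τ) : 0 ≤ cr d (p - c) :=
  convexHull_min (s := τ) (t := {q : ℂ | 0 ≤ cr d (q - c)}) h (convex_half d c) hp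

lemma pos_of_interior {A : Set ℂ} {c d : ℂ} (hd : d ≠ 0) (h : ∀ v ∈ A, 0 ≤ cr d (v - c)) {p : ℂ}
    (hp : p ∈ interior A) : 0 < cr d (p - c) := by
  rw [mem_interior_iff_mem_nhds] at hp
  have h1 : Tendsto (fun t : ℝ => p - t • (Complex.I * d)) (𝓝[>] 0) (𝓝 p) := by
    have h2 : Tendsto (fun t : ℝ => p - t • (Complex.I * d)) (𝓝 0) (𝓝 (p - (0:ℝ) • (Complex.I * d))) :=
      Continuous.tendsto (by fun_prop) 0
    rw [zero_smul, sub_zero] at h2
    exact h2.mono_left nhdsWithin_le_nhds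
  obtain ⟨t, h3, h4⟩ := ((h1.eventually hp).and self_mem_nhdsWithin).exists
  have h5 := h _ h3
  have h6 : cr d (p - t • (Complex.I * d) - c) =
      cr d (p - c) - t * (d.re * d.re + d.im * d.im) := by
    unfold cr
    simp only [Complex.sub_re, Complex.sub_im, Complex.real_smul, Complex.re_ofReal_mul,
      Complex.im_ofReal_mul, Complex.I_mul_re, Complex.I_mul_im]
    ring
  have h7 : 0 < d.re * d.re + d.im * d.im := by
    have := Complex.normSq_pos.2 hd
    rwa [Complex.normSq_apply] at this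
  have h8 : 0 < t * (d.re * d.re + d.im * d.im) := mul_pos h4 h7
  rw [h6] at h5
  linarith

lemma ne_of_noCross {F : Set (Finset ℂ)} {c d : ℂ} (hd : d ≠ 0) (h : NoCross F c d)
    {τ : Finset ℂ} (hτ : τ ∈ F) {p : ℂ} (hp : p ∈ interior (convexHull ℝ (τ : Set ℂ))) :
    cr d (p - c) ≠ 0 := by
  rcases h τ hτ with h1 | h1
  · exact (pos_of_interior hd (fun v hv => nonneg_of_hull (fun v hv => h1 v hv) hv) hp).ne'
  · have h2 : ∀ v ∈ (τ : Set ℂ), 0 ≤ cr (-d) (v - c) := by
      intro v hv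
      rw [cr_neg_left]
      exact neg_nonneg.2 (h1 v hv)
    have h3 := pos_of_interior (neg_ne_zero.2 hd) (fun v hv => nonneg_of_hull h2 hv) hp
    rw [cr_neg_left] at h3
    linarith

lemma cr_segment {a b q : ℂ} (hq : q ∈ segment ℝ a b) : cr (b - a) (q - a) = 0 := by
  obtain ⟨s, t, hs, ht, hst, rfl⟩ := hq
  rw [cr_comb _ _ hst]
  unfold cr
  simp only [Complex.sub_re, Complex.sub_im]
  ring

/-- triangulations compatible with the walls of a table -/
structure Adapted {N : ℕ} (T : PolygonalTable N) (F : Set (Finset ℂ)) : Prop where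
  trg : Trg T.Q F
  line : ∀ j, NoCross F (T.a j) (T.b j - T.a j)
  pa : ∀ j, NoCross F (T.a j) (Complex.I * (T.b j - T.a j))
  pb : ∀ j, NoCross F (T.b j) (Complex.I * (T.b j - T.a j))

variable {N : ℕ} {T : PolygonalTable N} {F : Set (Finset ℂ)}

lemma Adapted.disj_frontier (h : Adapted T F) {τ : Finset ℂ} (hτ : τ ∈ F) :
    Disjoint (interior (convexHull ℝ (τ : Set ℂ))) (frontier T.Q) := by
  rw [Set.disjoint_left]
  intro p hp hf
  rw [T.frontier_eq] at hf
  obtain ⟨j, hj⟩ := mem_iUnion.1 hf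
  exact ne_of_noCross (sub_ne_zero.2 (T.ne j).symm) (h.line j) hτ hp (cr_segment hj)

lemma Adapted.inn (h : Adapted T F) {τ : Finset ℂ} (hτ : τ ∈ F)
    (hn : (interior (convexHull ℝ (τ : Set ℂ)) ∩ T.Q).Nonempty) : τ ∈ Inn T.Q F := by
  refine ⟨hτ, ?_⟩
  have h1 : IsPreconnected (interior (convexHull ℝ (τ : Set ℂ))) :=
    (convex_convexHull ℝ _).interior.isPreconnected
  refine IsPreconnected.subset_left_of_subset_union (v := (closure T.Q)ᶜ) T.isOpen
    isClosed_closure.isOpen_compl ?_ ?_ hn h1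
  · exact disjoint_compl_right.mono_left subset_closure
  · intro p hp
    by_cases hc : p ∈ closure T.Q
    · left
      by_contra hq
      have h2 : p ∈ frontier T.Q := by
        rw [T.isOpen.frontier_eq]
        exact ⟨hc, hq⟩
      exact Set.disjoint_left.1 (h.disj_frontier hτ) hp h2
    · right
      exact hc

end Vale.Agent.P099T
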